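import Mathlib.Analysis.InnerProductSpace.l2Space
import Mathlib.Analysis.Normed.Module.Basic
import Mathlib.Topology.Bases
import Mathlib.Analysis.InnerProductSpace.PiL2
import Mathlib.Analysis.SpecialFunctions.Exponential
import Mathlib.Analysis.SpecialFunctions.Pow.NNReal
import Mathlib.Analysis.SpecialFunctions.Trigonometric.Basic
import Mathlib.Analysis.SpecialFunctions.Trigonometric.Bounds
import Mathlib.Analysis.SpecialFunctions.Trigonometric.DerivHyp
import Mathlib.MeasureTheory.Constructions.Polish.Basic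
import Mathlib.MeasureTheory.Function.L2Space
import Mathlib.MeasureTheory.Integral.Bochner.Set
import Mathlib.MeasureTheory.Integral.MeanInequalities
import Mathlib.MeasureTheory.Measure.Decomposition.RadonNikodym
import Mathlib.MeasureTheory.Measure.Hausdorff
import Mathlib.MeasureTheory.Measure.WithDensity
import Mathlib.Probability.Kernel.Composition.MeasureCompProd
import Mathlib.Probability.Kernel.Disintegration.StandardBorel
import Vale.Agent.P242.CDDefs

set_option linter.all false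

section

section

open Set Metric Filter Topology TopologicalSpace
open scoped ENNReal

namespace Vale.Agent.P242

/-- the Hilbert space `ℓ²(ℕ)` -/
abbrev EllTwo : Type := lp (fun _ : ℕ => ℝ) 2

/-- a separable Hilbert space embeds in `ℓ²(ℕ)` -/
lemma exists_isometry_ellTwo (H : Type*) [NormedAddCommGroup H] [InnerProductSpace ℝ H]
    [CompleteSpace H] [SeparableSpace H] : ∃ Φ : H → EllTwo, Isometry Φ := by
  classical
  obtain ⟨w, b, hb⟩ := exists_hilbertBasis ℝ H
  have horth : Orthonormal ℝ (fun i : w => (i : H)) := by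
    rw [← hb]; exact b.orthonormal
  have hdist : ∀ i j : w, i ≠ j → 1 ≤ dist i j := by
    intro i j hij
    have h1 : ‖(i : H) - j‖ ^ 2 = 2 := by
      rw [@norm_sub_sq_real, horth.1 i, horth.1 j, horth.2 hij]
      norm_num
    rw [Subtype.dist_eq, dist_eq_norm]
    nlinarith only [h1, norm_nonneg ((i : H) - j)]
  have hdisc : DiscreteTopology w := DiscreteTopology.of_forall_le_dist one_pos hdist
  have : SecondCountableTopology H := UniformSpace.secondCountable_of_separable H
  have hcount : Countable w := separableSpace_iff_countable.1 inferInstance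
  obtain ⟨e, he⟩ := exists_injective_nat w
  let B : HilbertBasis ℕ ℝ EllTwo := HilbertBasis.ofRepr (LinearIsometryEquiv.refl ℝ _)
  have hv : Orthonormal ℝ (fun i : w => B (e i)) := B.orthonormal.comp e he
  exact ⟨fun x => hv.orthogonalFamily.linearIsometry (b.repr x),
    (LinearIsometry.isometry _).comp b.repr.isometry⟩

/-- a continuous map of a separable space to a Hilbert space may be replaced by a map to
`ℓ²(ℕ)` without changing the distances -/
lemma exists_map_ellTwo {X : Type*} [TopologicalSpace X] [SeparableSpace X] {H : Type*}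
    [NormedAddCommGroup H] [InnerProductSpace ℝ H] [CompleteSpace H] {F : X → H}
    (hF : Continuous F) : ∃ G : X → EllTwo, ∀ x y, dist (G x) (G y) = dist (F x) (F y) := by
  let K : Submodule ℝ H := (Submodule.span ℝ (range F)).topologicalClosure
  have hK : IsSeparable (K : Set H) := by
    have h1 := (isSeparable_range hF).span (R := ℝ)
    exact h1.closure
  have hsep : SeparableSpace K := hK.separableSpace
  have hcomp : CompleteSpace K := (Submodule.isClosed_topologicalClosure _).completeSpace_coe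
  obtain ⟨Φ, hΦ⟩ := exists_isometry_ellTwo K
  have hmem : ∀ x, F x ∈ K := fun x =>
    Submodule.le_topologicalClosure _ (Submodule.subset_span (mem_range_self x))
  refine ⟨fun x => Φ ⟨F x, hmem x⟩, fun x y => ?_⟩
  rw [hΦ.dist_eq]
  rfl

end Vale.Agent.P242

namespace Vale.Agent.P242

lemma ellTwo_summable (f : EllTwo) : Summable fun k : ℕ => f k ^ 2 := by
  have h := lp.summable_inner (𝕜 := ℝ) f f
  refine h.congr fun k => ?_
  rw [real_inner_self_eq_norm_sq, Real.norm_eq_abs, sq_abs]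

lemma ellTwo_dist (f g : EllTwo) : dist f g = √(∑' k : ℕ, (f k - g k) ^ 2) := by
  have h : ‖f - g‖ ^ 2 = ∑' k : ℕ, (f k - g k) ^ 2 := by
    rw [← real_inner_self_eq_norm_sq, lp.inner_eq_tsum]
    congr 1
    ext k
    rw [real_inner_self_eq_norm_sq, Real.norm_eq_abs, sq_abs]
    rfl
  rw [← h, dist_eq_norm, Real.sqrt_sq (norm_nonneg _)]

end Vale.Agent.P242
end
end

section

section

open MeasureTheory Set Metric ProbabilityTheory
open scoped ENNReal

universe u

namespace Vale.Agent.P242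

variable {X : Type u} [MetricSpace X] [CompleteSpace X] [SecondCountableTopology X]
  [MeasurableSpace X] [BorelSpace X]

omit [MetricSpace X] [CompleteSpace X] [SecondCountableTopology X] [BorelSpace X] in
lemma IsCoupling.isProb {μ ν : Measure X} {q : Measure (X × X)} (h : IsCoupling μ ν q)
    [IsProbabilityMeasure μ] : IsProbabilityMeasure q := by
  constructor
  have h1 : q.map Prod.fst univ = 1 := by rw [h.1]; exact measure_univ
  rwa [Measure.map_apply measurable_fst MeasurableSet.univ, preimage_univ] at h1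

/-- gluing of two couplings along their common marginal -/
theorem glue {μ ν ρ : Measure X} [IsProbabilityMeasure μ] [IsProbabilityMeasure ν]
    {q₁ q₂ : Measure (X × X)} (h1 : IsCoupling μ ν q₁) (h2 : IsCoupling ν ρ q₂) :
    ∃ η : Measure ((X × X) × X),
      (∀ f : X × X → ℝ≥0∞, Measurable f → ∫⁻ w, f w.1 ∂η = ∫⁻ z, f z ∂q₁) ∧
      (∀ f : X × X → ℝ≥0∞, Measurable f → ∫⁻ w, f (w.1.2, w.2) ∂η = ∫⁻ z, f z ∂q₂) := by
  have : IsProbabilityMeasure q₁ := h1.isProb
  have : IsProbabilityMeasure q₂ := h2.isProb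
  have hne : Nonempty X := by
    by_contra hcon
    rw [not_nonempty_iff] at hcon
    have := measure_univ (μ := μ)
    rw [univ_eq_empty_iff.2 hcon, measure_empty] at this
    exact zero_ne_one this
  let κ : Kernel (X × X) X := q₂.condKernel.comap Prod.snd measurable_snd
  have hκ : IsMarkovKernel κ := inferInstance
  refine ⟨q₁ ⊗ₘ κ, fun f hf => ?_, fun f hf => ?_⟩
  · have hm : Measurable (fun w : (X × X) × X => f w.1) := hf.comp measurable_fst
    rw [Measure.lintegral_compProd hm]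
    simp
  · have hm : Measurable (fun w : (X × X) × X => f (w.1.2, w.2)) :=
      hf.comp ((measurable_snd.comp measurable_fst).prodMk measurable_snd)
    rw [Measure.lintegral_compProd hm]
    have e1 : ∀ a : X × X, ∫⁻ b, f (a.2, b) ∂(κ a) = (fun c => ∫⁻ b, f (c, b) ∂(q₂.condKernel c)) a.2 := by
      intro a
      simp only [κ, Kernel.comap_apply]
    simp only [e1]
    rw [← lintegral_map (f := fun c => ∫⁻ b, f (c, b) ∂(q₂.condKernel c)) (g := Prod.snd) ?_
      measurable_snd]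
    · rw [h1.2, ← h2.1]
      have e2 : q₂.map Prod.fst = q₂.fst := rfl
      rw [e2, ← Measure.lintegral_compProd hf, q₂.disintegrate q₂.condKernel]
    · exact Measurable.lintegral_kernel_prod_right' hf

/-- approximate `t`-intermediate points between `A₀` and `A₁` -/
def midSet (A₀ A₁ : Set X) (t κ : ℝ) : Set X :=
  {z | ∃ x₀ ∈ A₀, ∃ x₁ ∈ A₁, |dist x₀ z - t * dist x₀ x₁| < κ ∧
    |dist z x₁ - (1 - t) * dist x₀ x₁| < κ}

omit [CompleteSpace X] [SecondCountableTopology X] [MeasurableSpace X] [BorelSpace X] in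
lemma isOpen_midSet (A₀ A₁ : Set X) (t κ : ℝ) : IsOpen (midSet A₀ A₁ t κ) := by
  have : midSet A₀ A₁ t κ = ⋃ x₀ ∈ A₀, ⋃ x₁ ∈ A₁, {z | |dist x₀ z - t * dist x₀ x₁| < κ ∧
    |dist z x₁ - (1 - t) * dist x₀ x₁| < κ} := by
    ext z
    simp only [midSet, mem_ofPred_eq, mem_iUnion, exists_prop]
  rw [this]
  refine isOpen_biUnion fun x₀ _ => isOpen_biUnion fun x₁ _ => ?_
  exact (isOpen_lt ((continuous_const.dist continuous_id).sub continuous_const).abs
    continuous_const).inter
    (isOpen_lt ((continuous_id.dist continuous_const).sub continuous_const).abs continuous_const)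

/-- the elementary inequality behind the concentration on intermediate points -/
lemma mid_ineq {t a b c κ : ℝ} (ht0 : 0 < t) (ht1 : t < 1) (hc : 0 ≤ c)
    (hκ : 0 < κ) (hcab : c ≤ a + b) (h : κ ≤ |a - t * c| ∨ κ ≤ |b - (1 - t) * c|) :
    c ^ 2 + κ ^ 2 / 4 ≤ 1 / t * a ^ 2 + 1 / (1 - t) * b ^ 2 := by
  have h1t : 0 < 1 - t := by linarith
  set u := (1 - t) * a - t * b with hu
  set w := a + b - c with hw
  have hw0 : 0 ≤ w := by linarith only [hcab]
  have e1 : 1 / t * a ^ 2 + 1 / (1 - t) * b ^ 2 = (a + b) ^ 2 + u ^ 2 / (t * (1 - t)) := by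
    rw [hu]
    field_simp
    ring
  have e2 : u ^ 2 ≤ u ^ 2 / (t * (1 - t)) := by
    rw [le_div_iff₀ (by positivity)]
    have : t * (1 - t) ≤ 1 := by nlinarith only [ht1, ht0]
    nlinarith only [this]
  have e3 : w ^ 2 ≤ (a + b) ^ 2 - c ^ 2 := by
    have : (a + b) ^ 2 - c ^ 2 = w * (a + b + c) := by rw [hw]; ring
    rw [this, sq]
    apply mul_le_mul_of_nonneg_left _ hw0
    linarith only [hc]
  have e4 : κ ≤ |u| + w := by
    rcases h with h | h
    · have : a - t * c = u + t * w := by rw [hu, hw]; ring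
      rw [this] at h
      have h2 := abs_add_le u (t * w)
      rw [abs_of_nonneg (mul_nonneg ht0.le hw0)] at h2
      nlinarith only [h, h2, ht1, hcab]
    · have : b - (1 - t) * c = -u + (1 - t) * w := by rw [hu, hw]; ring
      rw [this] at h
      have h2 := abs_add_le (-u) ((1 - t) * w)
      rw [abs_of_nonneg (mul_nonneg h1t.le hw0), abs_neg] at h2
      nlinarith only [h, h2, ht0, hcab]
  have e5 : κ ^ 2 / 4 ≤ u ^ 2 + w ^ 2 := by
    have h3 : κ ^ 2 ≤ (|u| + w) ^ 2 := by
      apply pow_le_pow_left₀ hκ.le e4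
    have h4 : (|u| + w) ^ 2 ≤ 2 * (u ^ 2 + w ^ 2) := by
      have := sq_abs u
      nlinarith only [this, sq_nonneg (|u| - w)]
    nlinarith only [h3, h4]
  rw [e1]
  linarith only [e2, e3, e5]

lemma mid_ineq' {t a b c : ℝ} (ht0 : 0 < t) (ht1 : t < 1) (hc : 0 ≤ c)
    (hcab : c ≤ a + b) : c ^ 2 ≤ 1 / t * a ^ 2 + 1 / (1 - t) * b ^ 2 := by
  have h1t : 0 < 1 - t := by linarith
  have e1 : 1 / t * a ^ 2 + 1 / (1 - t) * b ^ 2 =
      (a + b) ^ 2 + ((1 - t) * a - t * b) ^ 2 / (t * (1 - t)) := by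
    field_simp
    ring
  rw [e1]
  have : 0 ≤ ((1 - t) * a - t * b) ^ 2 / (t * (1 - t)) := by positivity
  have : c ^ 2 ≤ (a + b) ^ 2 := pow_le_pow_left₀ hc hcab 2
  (clear h1t e1; linarith)

/-- along a Wasserstein geodesic the mass at time `t` sits on approximate intermediate points -/
theorem midpoint_conc {μ₀ μt μ₁ : Measure X} [IsProbabilityMeasure μ₀] [IsProbabilityMeasure μt]
    {t κ : ℝ} (ht0 : 0 < t) (ht1 : t < 1) (hκ : 0 < κ) {D : ℝ≥0∞} (hD : D ≠ ∞)
    (h01 : W2sq μ₀ μ₁ = D) (h0t : W2sq μ₀ μt = ENNReal.ofReal (t ^ 2) * D)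
    (ht1' : W2sq μt μ₁ = ENNReal.ofReal ((1 - t) ^ 2) * D) {A₀ A₁ : Set X}
    (hA₀ : MeasurableSet A₀) (hA₁ : MeasurableSet A₁) (h0 : μ₀ A₀ᶜ = 0) (h1 : μ₁ A₁ᶜ = 0) :
    μt (midSet A₀ A₁ t κ)ᶜ = 0 := by
  have h1t : 0 < 1 - t := by linarith only [ht1]
  set W := midSet A₀ A₁ t κ with hW
  have hWm : MeasurableSet W := (isOpen_midSet _ _ _ _).measurableSet
  set δ : ℝ≥0∞ := ENNReal.ofReal (κ ^ 2 / 4) with hδ
  have hδ0 : δ ≠ 0 := by
    rw [hδ, Ne, ENNReal.ofReal_eq_zero, not_le]
    positivity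
  set C : ℝ≥0∞ := ENNReal.ofReal (1 / t) + ENNReal.ofReal (1 / (1 - t)) with hC
  have hCtop : C ≠ ∞ := by
    rw [hC]
    exact ENNReal.add_ne_top.2 ⟨ENNReal.ofReal_ne_top, ENNReal.ofReal_ne_top⟩
  -- main estimate
  have key : ∀ ε : ℝ≥0∞, ε ≠ 0 → ε ≠ ∞ → δ * μt Wᶜ ≤ C * ε := by
    intro ε hε hεtop
    obtain ⟨q₁, hq₁, hc₁⟩ : ∃ q, IsCoupling μ₀ μt q ∧
        transportCost q ≤ ENNReal.ofReal (t ^ 2) * D + ε := by
      have hlt : W2sq μ₀ μt < ENNReal.ofReal (t ^ 2) * D + ε := by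
        rw [h0t]
        exact ENNReal.lt_add_right (ENNReal.mul_ne_top ENNReal.ofReal_ne_top hD) hε
      unfold W2sq at hlt
      rw [iInf_lt_iff] at hlt
      obtain ⟨q, hq⟩ := hlt
      rw [iInf_lt_iff] at hq
      obtain ⟨hq1, hq2⟩ := hq
      exact ⟨q, hq1, hq2.le⟩
    obtain ⟨q₂, hq₂, hc₂⟩ : ∃ q, IsCoupling μt μ₁ q ∧
        transportCost q ≤ ENNReal.ofReal ((1 - t) ^ 2) * D + ε := by
      have hlt : W2sq μt μ₁ < ENNReal.ofReal ((1 - t) ^ 2) * D + ε := by
        rw [ht1']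
        exact ENNReal.lt_add_right (ENNReal.mul_ne_top ENNReal.ofReal_ne_top hD) hε
      unfold W2sq at hlt
      rw [iInf_lt_iff] at hlt
      obtain ⟨q, hq⟩ := hlt
      rw [iInf_lt_iff] at hq
      obtain ⟨hq1, hq2⟩ := hq
      exact ⟨q, hq1, hq2.le⟩
    obtain ⟨η, hη1, hη2⟩ := glue hq₁ hq₂
    -- measurable facts
    have m1 : Measurable (fun w : (X × X) × X => w.1.1) := measurable_fst.comp measurable_fst
    have m2 : Measurable (fun w : (X × X) × X => w.1.2) := measurable_snd.comp measurable_fst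
    have m3 : Measurable (fun w : (X × X) × X => w.2) := measurable_snd
    have md : Measurable (fun z : X × X => ENNReal.ofReal (dist z.1 z.2 ^ 2)) := by fun_prop
    have md13 : Measurable (fun w : (X × X) × X => ENNReal.ofReal (dist w.1.1 w.2 ^ 2)) :=
      md.comp (m1.prodMk m3)
    have hs1 : ∀ s : Set (X × X), MeasurableSet s → η (Prod.fst ⁻¹' s) = q₁ s := by
      intro s hs
      have e := hη1 (s.indicator 1) (measurable_one.indicator hs)
      rw [lintegral_indicator_one hs] at e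
      rw [← e, ← lintegral_indicator_one (measurable_fst hs)]
      rfl
    have hs2 : ∀ s : Set (X × X), MeasurableSet s →
        η ((fun w : (X × X) × X => (w.1.2, w.2)) ⁻¹' s) = q₂ s := by
      intro s hs
      have e := hη2 (s.indicator 1) (measurable_one.indicator hs)
      rw [lintegral_indicator_one hs] at e
      rw [← e, ← lintegral_indicator_one ((m2.prodMk m3) hs)]
      rfl
    -- the outer coupling
    have hcoup : IsCoupling μ₀ μ₁ (η.map fun w => (w.1.1, w.2)) := by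
      constructor
      · rw [Measure.map_map measurable_fst (m1.prodMk m3)]
        ext s hs
        rw [Measure.map_apply (measurable_fst.comp (m1.prodMk m3)) hs, ← hq₁.1,
          Measure.map_apply measurable_fst hs, ← hs1 _ (measurable_fst hs)]
        rfl
      · rw [Measure.map_map measurable_snd (m1.prodMk m3)]
        ext s hs
        rw [Measure.map_apply (measurable_snd.comp (m1.prodMk m3)) hs, ← hq₂.2,
          Measure.map_apply measurable_snd hs, ← hs2 _ (measurable_snd hs)]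
        rfl
    have hDle : D ≤ ∫⁻ w, ENNReal.ofReal (dist w.1.1 w.2 ^ 2) ∂η := by
      rw [← h01]
      have : W2sq μ₀ μ₁ ≤ transportCost (η.map fun w => (w.1.1, w.2)) := iInf₂_le _ hcoup
      unfold transportCost at this
      rwa [lintegral_map md (m1.prodMk m3)] at this
    -- null sets
    have hz : μt = η.map (fun w => w.1.2) := by
      ext s hs
      rw [Measure.map_apply m2 hs, ← hq₁.2, Measure.map_apply measurable_snd hs,
        ← hs1 _ (measurable_snd hs)]
      rfl
    have hx0 : ∀ᵐ w ∂η, w.1.1 ∈ A₀ := by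
      have e1 : η ((fun w : (X × X) × X => w.1.1) ⁻¹' A₀ᶜ) = 0 := by
        have : (η.map fun w => (w.1.1, w.2)).map Prod.fst A₀ᶜ = 0 := by rw [hcoup.1]; exact h0
        rwa [Measure.map_map measurable_fst (m1.prodMk m3),
          Measure.map_apply (measurable_fst.comp (m1.prodMk m3)) hA₀.compl] at this
      exact e1
    have hx1 : ∀ᵐ w ∂η, w.2 ∈ A₁ := by
      have e1 : η ((fun w : (X × X) × X => w.2) ⁻¹' A₁ᶜ) = 0 := by
        have : (η.map fun w => (w.1.1, w.2)).map Prod.snd A₁ᶜ = 0 := by rw [hcoup.2]; exact h1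
        rwa [Measure.map_map measurable_snd (m1.prodMk m3),
          Measure.map_apply (measurable_snd.comp (m1.prodMk m3)) hA₁.compl] at this
      exact e1
    -- pointwise inequality
    have hpt : ∀ᵐ w ∂η, ENNReal.ofReal (dist w.1.1 w.2 ^ 2) +
        ((fun w : (X × X) × X => w.1.2) ⁻¹' Wᶜ).indicator (fun _ => δ) w ≤
        ENNReal.ofReal (1 / t) * ENNReal.ofReal (dist w.1.1 w.1.2 ^ 2) +
        ENNReal.ofReal (1 / (1 - t)) * ENNReal.ofReal (dist w.1.2 w.2 ^ 2) := by
      filter_upwards [hx0, hx1] with w hw0 hw1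
      have htri : dist w.1.1 w.2 ≤ dist w.1.1 w.1.2 + dist w.1.2 w.2 := dist_triangle _ _ _
      rw [← ENNReal.ofReal_mul (by positivity), ← ENNReal.ofReal_mul (by positivity),
        ← ENNReal.ofReal_add (by (clear * - ht0; positivity)) (by (clear * - ht1; positivity))]
      by_cases hwW : w.1.2 ∈ W
      · rw [indicator_of_notMem (by simpa using hwW), add_zero]
        exact ENNReal.ofReal_le_ofReal (mid_ineq' ht0 ht1 dist_nonneg htri)
      · rw [indicator_of_mem (by simpa using hwW), hδ,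
          ← ENNReal.ofReal_add (by (clear * -; positivity)) (by positivity)]
        apply ENNReal.ofReal_le_ofReal
        apply mid_ineq ht0 ht1 dist_nonneg hκ htri
        by_contra hcon
        rw [not_or, not_le, not_le] at hcon
        exact hwW ⟨w.1.1, hw0, w.2, hw1, hcon.1, hcon.2⟩
    have hint := lintegral_mono_ae hpt
    rw [lintegral_add_left md13, lintegral_indicator_const (m2 hWm.compl)] at hint
    have mA : Measurable (fun w : (X × X) × X =>
        ENNReal.ofReal (1 / t) * ENNReal.ofReal (dist w.1.1 w.1.2 ^ 2)) :=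
      (md.comp (m1.prodMk m2)).const_mul _
    have mB : Measurable (fun w : (X × X) × X => ENNReal.ofReal (dist w.1.1 w.1.2 ^ 2)) :=
      md.comp (m1.prodMk m2)
    have mC : Measurable (fun w : (X × X) × X => ENNReal.ofReal (dist w.1.2 w.2 ^ 2)) :=
      md.comp (m2.prodMk m3)
    rw [lintegral_add_left mA, lintegral_const_mul _ mB, lintegral_const_mul _ mC] at hint
    have c1 : ∫⁻ w : (X × X) × X, ENNReal.ofReal (dist w.1.1 w.1.2 ^ 2) ∂η = transportCost q₁ :=
      hη1 _ md
    have c2 : ∫⁻ w : (X × X) × X, ENNReal.ofReal (dist w.1.2 w.2 ^ 2) ∂η = transportCost q₂ :=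
      hη2 _ md
    have c3 : η ((fun w : (X × X) × X => w.1.2) ⁻¹' Wᶜ) = μt Wᶜ := by
      rw [hz, Measure.map_apply m2 hWm.compl]
    rw [c3] at hint
    have hint2 : D + δ * μt Wᶜ ≤ ENNReal.ofReal (1 / t) * (ENNReal.ofReal (t ^ 2) * D + ε) +
        ENNReal.ofReal (1 / (1 - t)) * (ENNReal.ofReal ((1 - t) ^ 2) * D + ε) := by
      calc D + δ * μt Wᶜ ≤ _ + δ * μt Wᶜ := add_le_add_left hDle _
        _ ≤ _ := hint
        _ ≤ _ := by
          apply add_le_add
          · apply mul_le_mul_right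
            exact (le_of_eq c1).trans hc₁
          · apply mul_le_mul_right
            exact (le_of_eq c2).trans hc₂
    have e3 : ENNReal.ofReal (1 / t) * (ENNReal.ofReal (t ^ 2) * D + ε) +
        ENNReal.ofReal (1 / (1 - t)) * (ENNReal.ofReal ((1 - t) ^ 2) * D + ε) = D + C * ε := by
      rw [mul_add, mul_add, ← mul_assoc, ← mul_assoc, ← ENNReal.ofReal_mul (by positivity),
        ← ENNReal.ofReal_mul (by positivity)]
      have a1 : 1 / t * t ^ 2 = t := by field_simp
      have a2 : 1 / (1 - t) * (1 - t) ^ 2 = 1 - t := by (clear * - h1t; field_simp)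
      rw [a1, a2, hC]
      have a3 : ENNReal.ofReal t * D + ENNReal.ofReal (1 - t) * D = D := by
        rw [← add_mul, ← ENNReal.ofReal_add ht0.le h1t.le]
        simp
      calc _ = (ENNReal.ofReal t * D + ENNReal.ofReal (1 - t) * D) +
            (ENNReal.ofReal (1 / t) + ENNReal.ofReal (1 / (1 - t))) * ε := by ring
        _ = _ := by rw [a3]
    rw [e3] at hint2
    exact (ENNReal.add_le_add_iff_left hD).1 hint2
  -- let `ε → 0`
  by_contra hcon
  have hpos : δ * μt Wᶜ ≠ 0 := mul_ne_zero hδ0 hcon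
  have hCne : C ≠ 0 := by
    rw [hC]
    intro h
    rw [add_eq_zero] at h
    have := h.1
    rw [ENNReal.ofReal_eq_zero] at this
    have h2 : 0 < 1 / t := by positivity
    linarith only [this, h2]
  have hfin : δ * μt Wᶜ ≠ ∞ := ENNReal.mul_ne_top ENNReal.ofReal_ne_top (measure_ne_top _ _)
  have h3 := key (δ * μt Wᶜ / (2 * C)) (by
    rw [Ne, ENNReal.div_eq_zero_iff, not_or]
    exact ⟨hpos, ENNReal.mul_ne_top ENNReal.ofNat_ne_top hCtop⟩)
    (by
      apply ENNReal.div_ne_top hfin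
      exact mul_ne_zero (by norm_num) hCne)
  have h4 : C * (δ * μt Wᶜ / (2 * C)) = δ * μt Wᶜ / 2 := by
    rw [mul_comm 2 C, ← mul_div_assoc, ENNReal.mul_div_mul_left _ _ hCne hCtop]
  rw [h4] at h3
  have h5 : δ * μt Wᶜ / 2 < δ * μt Wᶜ := ENNReal.half_lt_self hpos hfin
  exact absurd h3 (not_le.2 h5)

end Vale.Agent.P242
end
end

section

section

open MeasureTheory Set Metric Filter Topology
open scoped ENNReal

namespace Vale.Agent.P242

lemma sin_ratio {t a : ℝ} (ht0 : 0 < t) (ht1 : t ≤ 1) (ha0 : 0 < a) (ha1 : a ≤ 1) :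
    t * (1 - a) ≤ Real.sin (t * a) / Real.sin a := by
  have hs : 0 < Real.sin a := Real.sin_pos_of_pos_of_lt_pi ha0 (by linarith [Real.two_le_pi])
  rw [le_div_iff₀ hs]
  have hta : 0 < t * a := by positivity
  have hta1 : t * a ≤ 1 := by nlinarith only [ht1, ht0, ha1]
  have h1 : t * a - (t * a) ^ 3 / 6 < Real.sin (t * a) := Real.sin_gt_sub_cube hta
  have h2 : Real.sin a ≤ a := (Real.sin_lt ha0).le
  have h3 : 0 ≤ 1 - a := by linarith only [ha1]
  calc t * (1 - a) * Real.sin a ≤ t * (1 - a) * a := by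
        apply mul_le_mul_of_nonneg_left h2 (by (clear * - ht0 ha1; positivity))
    _ ≤ t * a - (t * a) ^ 3 / 6 := by
        have h4 : (t * a) ^ 3 ≤ t * a ^ 2 := by
          have h5 : t ^ 3 ≤ t := by nlinarith only [ht0, ht1, sq_nonneg t]
          have h6 : a ^ 3 ≤ a ^ 2 := by nlinarith only [ha1]
          calc (t * a) ^ 3 = t ^ 3 * a ^ 3 := by ring
            _ ≤ t * a ^ 3 := mul_le_mul_of_nonneg_right h5 (by positivity)
            _ ≤ t * a ^ 2 := mul_le_mul_of_nonneg_left h6 ht0.le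
        nlinarith only [h4, ht0]
    _ ≤ _ := h1.le

lemma sinh_ratio {t a : ℝ} (ht0 : 0 < t) (ha0 : 0 < a) (ha1 : a ≤ 1) :
    t * (1 - a) ≤ Real.sinh (t * a) / Real.sinh a := by
  have hs : 0 < Real.sinh a := Real.sinh_pos_iff.2 ha0
  rw [le_div_iff₀ hs]
  have hta : 0 < t * a := by positivity
  have h1 : t * a ≤ Real.sinh (t * a) := Real.self_le_sinh_iff.2 hta.le
  have h2 : Real.sinh a ≤ a * (1 + a / 2) := by
    rw [Real.sinh_eq]
    have e1 := Real.abs_exp_sub_one_sub_id_le (x := a) (by rw [abs_of_pos ha0]; exact ha1)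
    have e2 := (abs_le.1 e1).2
    have e3 := Real.add_one_le_exp (-a)
    linarith
  have h3 : 0 ≤ 1 - a := by linarith only [ha1]
  calc t * (1 - a) * Real.sinh a ≤ t * (1 - a) * (a * (1 + a / 2)) := by
        apply mul_le_mul_of_nonneg_left h2 (by positivity)
    _ ≤ t * a := by
        have : (1 - a) * (1 + a / 2) ≤ 1 := by nlinarith only [ha0]
        calc t * (1 - a) * (a * (1 + a / 2)) = (t * a) * ((1 - a) * (1 + a / 2)) := by ring
          _ ≤ (t * a) * 1 := mul_le_mul_of_nonneg_left this hta.le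
          _ = t * a := mul_one _
    _ ≤ _ := h1

lemma sigma_lower {K M t θ a₀ : ℝ} (hM : 0 < M) (ha₀1 : a₀ ≤ 1)
    (ht0 : 0 < t) (ht1 : t ≤ 1) (hθ0 : 0 ≤ θ) (hθ : θ * √(|K| / M) ≤ a₀) :
    ENNReal.ofReal (t * (1 - a₀)) ≤ sigmaCoeff K M t θ := by
  unfold sigmaCoeff
  split_ifs with h1 h2 h3
  · exact le_top
  · apply ENNReal.ofReal_le_ofReal
    have hθp : 0 < θ := by
      rcases hθ0.lt_or_eq with h | h
      · exact h
      · rw [← h] at h2; simp at h2
    have hK : 0 < K := by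
      by_contra hcon
      have := mul_nonpos_of_nonpos_of_nonneg (not_lt.1 hcon) (sq_nonneg θ)
      linarith only [h2, this]
    rw [abs_of_pos hK] at hθ
    have ha : 0 < θ * √(K / M) := mul_pos hθp (Real.sqrt_pos.2 (div_pos hK hM))
    refine le_trans ?_ (sin_ratio ht0 ht1 ha (hθ.trans ha₀1))
    apply mul_le_mul_of_nonneg_left _ ht0.le
    linarith only [hθ]
  · apply ENNReal.ofReal_le_ofReal
    have : 0 ≤ a₀ := le_trans (mul_nonneg hθ0 (Real.sqrt_nonneg _)) hθ
    nlinarith only [ht0, this]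
  · apply ENNReal.ofReal_le_ofReal
    have h4 : K * θ ^ 2 < 0 := lt_of_le_of_ne (not_lt.1 h2) h3
    have hθp : 0 < θ := by
      rcases hθ0.lt_or_eq with h | h
      · exact h
      · rw [← h] at h4; simp at h4
    have hK : K < 0 := by
      by_contra hcon
      have := mul_nonneg (not_lt.1 hcon) (sq_nonneg θ)
      linarith only [h4, this]
    rw [abs_of_neg hK] at hθ
    have ha : 0 < θ * √(-K / M) := mul_pos hθp (Real.sqrt_pos.2 (div_pos (by linarith only [hK]) hM))
    refine le_trans ?_ (sinh_ratio ht0 ha (hθ.trans ha₀1))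
    apply mul_le_mul_of_nonneg_left _ ht0.le
    linarith only [hθ]

/-- at small scale the distortion coefficients are almost Euclidean -/
lemma tau_lower {K N Q : ℝ} (hN : 1 < N) (hQ0 : 0 < Q) (hQ : Q < 1) :
    ∃ θ₀ : ℝ, 0 < θ₀ ∧ ∀ θ, 0 ≤ θ → θ ≤ θ₀ → ∀ t, 0 < t → t ≤ 1 →
      ENNReal.ofReal (Q * t ^ N) ≤ tauCoeff K N t θ ^ N := by
  have hM : 0 < N - 1 := by linarith
  -- choose `a₀` with `(1 - a₀)^(N-1) ≥ Q`
  set q : ℝ := Q ^ (1 / (N - 1)) with hq
  have hq0 : 0 < q := Real.rpow_pos_of_pos hQ0 _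
  have hq1 : q < 1 := Real.rpow_lt_one hQ0.le hQ (by positivity)
  have hqQ : q ^ (N - 1) = Q := by
    rw [hq, ← Real.rpow_mul hQ0.le, one_div, inv_mul_cancel₀ hM.ne', Real.rpow_one]
  have hpos : 0 < √(|K| / (N - 1)) + 1 := by (clear * -; positivity)
  refine ⟨(1 - q) / (√(|K| / (N - 1)) + 1), div_pos (by linarith only [hq1]) hpos, ?_⟩
  intro θ hθ0 hθ t ht0 ht1
  have h1 : θ * √(|K| / (N - 1)) ≤ 1 - q := by
    rw [le_div_iff₀ hpos] at hθ
    nlinarith only [hθ0, hθ]
  have h2 := sigma_lower (K := K) hM (a₀ := 1 - q) (by linarith only [hq0]) ht0 ht1 hθ0 h1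
  have h3 : t * (1 - (1 - q)) = t * q := by ring
  rw [h3] at h2
  unfold tauCoeff
  rw [ENNReal.mul_rpow_of_nonneg _ _ (by linarith only [hN]), ← ENNReal.rpow_mul, ← ENNReal.rpow_mul,
    one_div, inv_mul_cancel₀ (by linarith only [hN]), ENNReal.rpow_one, div_mul_cancel₀ _ (by linarith only [hN])]
  calc ENNReal.ofReal (Q * t ^ N) = ENNReal.ofReal t * ENNReal.ofReal (t * q) ^ (N - 1) := by
        rw [ENNReal.ofReal_rpow_of_pos (by positivity), ← ENNReal.ofReal_mul ht0.le]
        congr 1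
        rw [Real.mul_rpow ht0.le hq0.le, hqQ, ← mul_assoc]
        have : t * t ^ (N - 1) = t ^ N := by
          rw [Real.rpow_sub_one ht0.ne']
          (clear * - ht0; field_simp)
        rw [this, mul_comm]
    _ ≤ _ := by
        (clear * - h2 hN; gcongr)

end Vale.Agent.P242
end
end

section

section

open MeasureTheory Set Metric Filter Topology
open scoped ENNReal

universe u

namespace Vale.Agent.P242

variable {X : Type u} [MetricSpace X] [CompleteSpace X] [SecondCountableTopology X]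
  [MeasurableSpace X] [BorelSpace X]

/-- normalized restriction -/
noncomputable def unif (m : Measure X) (s : Set X) : Measure X := (m s)⁻¹ • m.restrict s

omit [CompleteSpace X] [SecondCountableTopology X] [BorelSpace X] in
lemma unif_isP2 {m : Measure X} {s : Set X} {x : X} {R : ℝ}
    (hsub : s ⊆ ball x R) (h0 : m s ≠ 0) (hfin : m s ≠ ∞) : IsP2 m (unif m s) := by
  refine ⟨⟨?_⟩, ?_, fun o => ?_⟩
  · rw [unif, Measure.smul_apply, Measure.restrict_apply_univ, smul_eq_mul,
      ENNReal.inv_mul_cancel h0 hfin]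
  · exact (Measure.restrict_le_self.absolutelyContinuous).smul_left _
  · rw [unif, lintegral_smul_measure]
    have h1 : ∫⁻ y in s, ENNReal.ofReal (dist o y ^ 2) ∂m ≤
        ∫⁻ y in s, ENNReal.ofReal ((dist o x + R) ^ 2) ∂m := by
      apply setLIntegral_mono measurable_const
      intro y hy
      apply ENNReal.ofReal_le_ofReal
      apply pow_le_pow_left₀ dist_nonneg
      have h2 := hsub hy
      rw [mem_ball, dist_comm] at h2
      have h3 := dist_triangle o x y
      linarith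
    rw [setLIntegral_const] at h1
    refine lt_of_le_of_lt (mul_le_mul_right h1 _) ?_
    exact ENNReal.mul_lt_top (ENNReal.inv_lt_top.2 (pos_iff_ne_zero.2 h0))
      (ENNReal.mul_lt_top ENNReal.ofReal_lt_top hfin.lt_top)

omit [MetricSpace X] [CompleteSpace X] [SecondCountableTopology X] [BorelSpace X] in
lemma unif_compl {m : Measure X} {s : Set X} (hs : MeasurableSet s) : unif m s sᶜ = 0 := by
  rw [unif, Measure.smul_apply, Measure.restrict_apply hs.compl]
  simp

/-- the measure contraction inequality obtained from `CD(K,N)` -/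
theorem contraction {m : Measure X} {K N Q : ℝ} (hfin : ∀ (x : X) (r : ℝ), m (ball x r) < ∞)
    (hpos : ∀ (x : X) (r : ℝ), 0 < r → 0 < m (ball x r)) (hCD : IsCD K N m) (hN : 1 < N)
    (hQ0 : 0 < Q) (hQ : Q < 1) :
    ∃ R₀ : ℝ, 0 < R₀ ∧ ∀ (x : X) (R κ t : ℝ), 0 < R → R ≤ R₀ → 0 < κ → κ ≤ R₀ → 0 < t → t < 1 →
      ∀ A : Set X, MeasurableSet A → A ⊆ ball x R →
        ENNReal.ofReal (Q * t ^ N) * m A ≤ m (midSet (ball x κ) A t κ) := by
  obtain ⟨θ₀, hθ₀, hτ⟩ := tau_lower (K := K) hN hQ0 hQ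
  refine ⟨θ₀ / 2, by positivity, ?_⟩
  intro x R κ t hR hRR hκ hκR ht0 ht1 A hA hAsub
  have hN0 : 0 < N := by linarith only [hN]
  have hsig : SigmaFinite m := by
    have : IsLocallyFiniteMeasure m := ⟨fun y => ⟨ball y 1, ball_mem_nhds y one_pos, hfin y 1⟩⟩
    infer_instance
  by_cases hA0 : m A = 0
  · rw [hA0, mul_zero]
    exact zero_le
  have hAtop : m A ≠ ∞ := ((measure_mono hAsub).trans_lt (hfin x R)).ne
  have hB0 : m (ball x κ) ≠ 0 := (hpos x κ hκ).ne'
  have hBtop : m (ball x κ) ≠ ∞ := (hfin x κ).ne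
  have hP0 : IsP2 m (unif m (ball x κ)) := unif_isP2 (Subset.refl _) hB0 hBtop
  have hP1 : IsP2 m (unif m A) := unif_isP2 hAsub hA0 hAtop
  obtain ⟨q, Γ, ⟨hqc, hqo⟩, hΓ0, hΓ1, hΓ, hΓP, hconv⟩ := hCD _ _ hP0 hP1
  have hprob0 : IsProbabilityMeasure (unif m (ball x κ)) := hP0.1
  have hprobq : IsProbabilityMeasure q := hqc.isProb
  have htI : t ∈ Icc (0 : ℝ) 1 := ⟨ht0.le, ht1.le⟩
  have hprobt : IsProbabilityMeasure (Γ t) := (hΓP t htI).1
  -- supports
  have hq0 : ∀ᵐ z ∂q, z.1 ∈ ball x κ := by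
    have h1 : ∀ᵐ y ∂(q.map Prod.fst), y ∈ ball x κ := by
      rw [hqc.1]
      exact unif_compl measurableSet_ball
    exact ae_of_ae_map measurable_fst.aemeasurable h1
  have hq1 : ∀ᵐ z ∂q, z.2 ∈ A := by
    have h1 : ∀ᵐ y ∂(q.map Prod.snd), y ∈ A := by
      rw [hqc.2]
      exact unif_compl hA
    exact ae_of_ae_map measurable_snd.aemeasurable h1
  have hqd : ∀ᵐ z ∂q, dist z.1 z.2 ≤ θ₀ := by
    filter_upwards [hq0, hq1] with z h1 h2
    have h3 := hAsub h2
    rw [mem_ball] at h1 h3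
    have h4 := dist_triangle_right z.1 z.2 x
    linarith only [hRR, hκR, h1, h3, h4]
  -- finiteness of the Wasserstein distance
  have hWfin : W2sq (unif m (ball x κ)) (unif m A) ≠ ∞ := by
    rw [← hqo]
    unfold transportCost
    have h1 : ∫⁻ z, ENNReal.ofReal (dist z.1 z.2 ^ 2) ∂q ≤ ∫⁻ z, ENNReal.ofReal (θ₀ ^ 2) ∂q := by
      apply lintegral_mono_ae
      filter_upwards [hqd] with z hz
      apply ENNReal.ofReal_le_ofReal
      exact pow_le_pow_left₀ dist_nonneg hz 2
    rw [lintegral_const, measure_univ, mul_one] at h1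
    exact (h1.trans_lt ENNReal.ofReal_lt_top).ne
  -- concentration
  set W := midSet (ball x κ) A t κ with hW
  have hWm : MeasurableSet W := (isOpen_midSet _ _ _ _).measurableSet
  have hconc : Γ t Wᶜ = 0 := by
    have h0 := hΓ 0 ⟨le_refl _, zero_le_one⟩ t htI
    have h1 := hΓ t htI 1 ⟨zero_le_one, le_refl _⟩
    rw [hΓ0, hΓ1] at h0 h1
    refine midpoint_conc ht0 ht1 hκ hWfin rfl ?_ ?_ measurableSet_ball hA
      (unif_compl measurableSet_ball) (unif_compl hA)
    · rw [h0]
      congr 2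
      ring
    · rw [h1]
      congr 2
      ring
  -- lower bound for the left side
  have hderiv : ∀ᵐ z ∂q, (unif m A).rnDeriv m z.2 = (m A)⁻¹ := by
    have h1 : (unif m A).rnDeriv m =ᵐ[m] (m A)⁻¹ • (m.restrict A).rnDeriv m :=
      Measure.rnDeriv_smul_left_of_ne_top' _ _ (ENNReal.inv_ne_top.2 hA0)
    have h2 : (m.restrict A).rnDeriv m =ᵐ[m] A.indicator 1 := Measure.rnDeriv_restrict_self m hA
    have h3 : ∀ᵐ y ∂m, y ∈ A → (unif m A).rnDeriv m y = (m A)⁻¹ := by
      filter_upwards [h1, h2] with y hy1 hy2 hyA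
      rw [hy1, Pi.smul_apply, hy2, indicator_of_mem hyA, smul_eq_mul, Pi.one_apply, mul_one]
    have h4 : ∀ᵐ y ∂(q.map Prod.snd), y ∈ A → (unif m A).rnDeriv m y = (m A)⁻¹ := by
      rw [hqc.2]
      exact hP1.2.1.ae_le h3
    have h5 := ae_of_ae_map measurable_snd.aemeasurable h4
    filter_upwards [h5, hq1] with z hz1 hz2 using hz1 hz2
  have hlow : ENNReal.ofReal (Q * t ^ N) ^ (1 / N) * (m A) ^ (1 / N) ≤
      ∫⁻ z, ((Γ t).rnDeriv m z) ^ (1 - 1 / N) ∂m := by
    refine le_trans ?_ (hconv t htI N le_rfl)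
    calc ENNReal.ofReal (Q * t ^ N) ^ (1 / N) * (m A) ^ (1 / N)
        = ∫⁻ _, ENNReal.ofReal (Q * t ^ N) ^ (1 / N) * (m A) ^ (1 / N) ∂q := by
          rw [lintegral_const, measure_univ, mul_one]
      _ ≤ _ := by
          apply lintegral_mono_ae
          filter_upwards [hqd, hderiv] with z h1 h2
          refine le_trans ?_ le_add_self
          apply mul_le_mul'
          · have h3 := hτ (dist z.1 z.2) dist_nonneg h1 t ht0 ht1.le
            have h4 := ENNReal.rpow_le_rpow h3 (z := 1 / N) (by positivity)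
            rwa [← ENNReal.rpow_mul, mul_one_div_cancel hN0.ne', ENNReal.rpow_one] at h4
          · rw [h2, neg_div, ENNReal.rpow_neg, ← ENNReal.inv_rpow, inv_inv]
  -- upper bound by Hoelder
  have hup : ∫⁻ z, ((Γ t).rnDeriv m z) ^ (1 - 1 / N) ∂m ≤ (m W) ^ (1 / N) := by
    have hexp : 0 < 1 - 1 / N := by
      have : 1 / N < 1 := by rw [div_lt_one hN0]; exact hN
      linarith only [this]
    have hzero : ∀ᵐ y ∂m, y ∈ Wᶜ → (Γ t).rnDeriv m y = 0 := by
      have h1 : ∫⁻ y in Wᶜ, (Γ t).rnDeriv m y ∂m = 0 := by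
        apply le_antisymm _ zero_le
        rw [← hconc]
        exact Measure.setLIntegral_rnDeriv_le _
      rw [lintegral_eq_zero_iff (Measure.measurable_rnDeriv _ _)] at h1
      exact (ae_restrict_iff' hWm.compl).1 h1
    have h2 : ∫⁻ z, ((Γ t).rnDeriv m z) ^ (1 - 1 / N) ∂m =
        ∫⁻ z in W, ((Γ t).rnDeriv m z) ^ (1 - 1 / N) ∂m := by
      rw [← lintegral_indicator hWm]
      apply lintegral_congr_ae
      filter_upwards [hzero] with y hy
      by_cases hyW : y ∈ W
      · rw [indicator_of_mem hyW]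
      · rw [indicator_of_notMem hyW, hy hyW, ENNReal.zero_rpow_of_pos hexp]
    rw [h2]
    have hconj := (Real.HolderConjugate.conjExponent hN).symm
    have h3 := ENNReal.lintegral_mul_le_Lp_mul_Lq (m.restrict W) hconj
      (f := fun z => ((Γ t).rnDeriv m z) ^ (1 - 1 / N)) (g := fun _ => 1)
      ((Measure.measurable_rnDeriv _ _).pow_const _).aemeasurable aemeasurable_const
    have h4 : ∀ z, (((Γ t).rnDeriv m z) ^ (1 - 1 / N)) ^ (Real.conjExponent N) =
        (Γ t).rnDeriv m z := by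
      intro z
      rw [← ENNReal.rpow_mul]
      have hN1 : N - 1 ≠ 0 := by linarith only [hN]
      have : (1 - 1 / N) * Real.conjExponent N = 1 := by
        unfold Real.conjExponent
        (clear * - hN hN1; field_simp)
      rw [this, ENNReal.rpow_one]
    simp only [h4, Pi.mul_apply, mul_one, ENNReal.one_rpow, lintegral_const,
      Measure.restrict_apply_univ, one_mul] at h3
    have h5 : (∫⁻ z in W, (Γ t).rnDeriv m z ∂m) ≤ 1 :=
      (Measure.setLIntegral_rnDeriv_le _).trans prob_le_one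
    refine h3.trans ?_
    calc _ ≤ (1 : ℝ≥0∞) ^ (1 / Real.conjExponent N) * (m W) ^ (1 / N) := by
          apply mul_le_mul_left
          apply ENNReal.rpow_le_rpow h5
          exact one_div_nonneg.2 hconj.nonneg
      _ = _ := by rw [ENNReal.one_rpow, one_mul]
  -- conclusion
  have hfinal := hlow.trans hup
  rw [← ENNReal.mul_rpow_of_nonneg _ _ (by positivity)] at hfinal
  have h6 := ENNReal.rpow_le_rpow hfinal hN0.le
  rwa [← ENNReal.rpow_mul, ← ENNReal.rpow_mul, one_div_mul_cancel hN0.ne', ENNReal.rpow_one,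
    ENNReal.rpow_one] at h6

end Vale.Agent.P242
end
end

section

section

open MeasureTheory Set Metric Filter Topology
open scoped ENNReal

universe u

namespace Vale.Agent.P242

variable {X : Type u} [MetricSpace X] [MeasurableSpace X] [BorelSpace X]

/-- real-valued contraction property at small scales -/
def Contr (m : Measure X) (N Q R₀ : ℝ) : Prop :=
  ∀ (x : X) (R κ t : ℝ), 0 < R → R ≤ R₀ → 0 < κ → κ ≤ R₀ → 0 < t → t < 1 →
    ∀ A : Set X, MeasurableSet A → A ⊆ ball x R →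
      Q * t ^ N * m.real A ≤ m.real (midSet (ball x κ) A t κ)

omit [MeasurableSpace X] [BorelSpace X] in
lemma midSet_subset {x : X} {R κ t : ℝ} {A : Set X} (ht0 : 0 < t) (ht1 : t < 1) (hκ : 0 < κ)
    (hA : A ⊆ ball x R) : midSet (ball x κ) A t κ ⊆ ball x (t * R + 3 * κ) := by
  rintro z ⟨x₀, hx₀, x₁, hx₁, h1, h2⟩
  have h3 := hA hx₁
  rw [mem_ball] at hx₀ h3 ⊢
  have h4 := dist_triangle x₀ x x₁
  rw [dist_comm x x₁] at h4
  have h5 := (abs_lt.1 h1).2
  have h6 := dist_triangle z x₀ x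
  rw [dist_comm z x₀] at h6
  have h7 : t * dist x₀ x₁ ≤ t * (κ + R) := mul_le_mul_of_nonneg_left (by linarith only [hx₀, h3, h4]) ht0.le
  have h8 : t * κ ≤ κ := by nlinarith only [ht1, hκ]
  linarith

lemma contr_of_CD [CompleteSpace X] [SecondCountableTopology X] {m : Measure X} {K N Q : ℝ}
    (hfin : ∀ (x : X) (r : ℝ), m (ball x r) < ∞)
    (hpos : ∀ (x : X) (r : ℝ), 0 < r → 0 < m (ball x r)) (hCD : IsCD K N m) (hN : 1 < N)
    (hQ0 : 0 < Q) (hQ : Q < 1) : ∃ R₀ : ℝ, 0 < R₀ ∧ Contr m N Q R₀ := by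
  obtain ⟨R₀, hR₀, h⟩ := contraction hfin hpos hCD hN hQ0 hQ
  refine ⟨R₀, hR₀, fun x R κ t hR hRR hκ hκR ht0 ht1 A hA hAsub => ?_⟩
  have h1 := h x R κ t hR hRR hκ hκR ht0 ht1 A hA hAsub
  have htop : m (midSet (ball x κ) A t κ) ≠ ∞ :=
    ((measure_mono (midSet_subset ht0 ht1 hκ hAsub)).trans_lt (hfin _ _)).ne
  have h2 := ENNReal.toReal_mono htop h1
  rwa [ENNReal.toReal_mul, ENNReal.toReal_ofReal (by positivity)] at h2

/-- Bishop-Gromov at small scales -/
lemma Contr.mono {m : Measure X} {N Q R₀ : ℝ} (h : Contr m N Q R₀)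
    (hfin : ∀ (x : X) (r : ℝ), m (ball x r) < ∞) (hQ1 : Q ≤ 1)
    {x : X} {s R : ℝ} (hs : 0 < s)
    (hsR : s ≤ R) (hR : R ≤ R₀) : Q * (s / R) ^ N * m.real (ball x R) ≤ m.real (ball x s) := by
  have hRpos : 0 < R := hs.trans_le hsR
  rcases hsR.lt_or_eq with hlt | heq
  · have hc : 0 < s / R := by positivity
    have hc1 : s / R < 1 := (div_lt_one hRpos).2 hlt
    have htend : Tendsto (fun t : ℝ => Q * t ^ N * m.real (ball x R)) (𝓝[<] (s / R))
        (𝓝 (Q * (s / R) ^ N * m.real (ball x R))) := by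
      apply Tendsto.mono_left _ nhdsWithin_le_nhds
      apply Tendsto.mul_const
      apply Tendsto.const_mul
      exact (Real.continuousAt_rpow_const _ _ (Or.inl hc.ne')).tendsto
    refine le_of_tendsto htend ?_
    have hpos : ∀ᶠ t in 𝓝[<] (s / R), 0 < t :=
      nhdsWithin_le_nhds (Ioi_mem_nhds hc)
    filter_upwards [self_mem_nhdsWithin, hpos] with t ht ht0
    rw [mem_Iio] at ht
    have htR : t * R < s := by rwa [lt_div_iff₀ hRpos] at ht
    set κ := min ((s - t * R) / 3) R₀ with hκ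
    have hκ0 : 0 < κ := lt_min (by linarith only [htR]) (by linarith only [hs, hR, hlt])
    refine (h x R κ t hRpos hR hκ0 (min_le_right _ _) ht0 (by linarith only [hc1, ht]) (ball x R)
      measurableSet_ball (Subset.refl _)).trans ?_
    apply measureReal_mono _ (hfin _ _).ne
    refine (midSet_subset ht0 (by linarith only [hc1, ht]) hκ0 (Subset.refl _)).trans (ball_subset_ball ?_)
    have := min_le_left ((s - t * R) / 3) R₀
    linarith only [this]
  · rw [heq, div_self hRpos.ne', Real.one_rpow, mul_one]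
    exact mul_le_of_le_one_left measureReal_nonneg hQ1

/-- a finite maximal separated set inside a ball, with the packing bound -/
lemma exists_net {m : Measure X} {N Q R₀ : ℝ} (h : Contr m N Q R₀)
    (hfin : ∀ (x : X) (r : ℝ), m (ball x r) < ∞)
    (hpos : ∀ (x : X) (r : ℝ), 0 < r → 0 < m (ball x r)) (hQ0 : 0 < Q) (hQ1 : Q ≤ 1)
    (x₀ : X) {r s : ℝ} (hr : 0 < r) (hr2 : 2 * r ≤ R₀) (hs : 0 < s) (hsr : s ≤ r) :
    ∃ S : Finset X, (S.card : ℝ) ≤ (8 * r / s) ^ N / Q ^ 2 ∧ ball x₀ r ⊆ ⋃ y ∈ S, ball y s := by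
  classical
  set M := m.real (ball x₀ r) with hM
  have hMpos : 0 < M := ENNReal.toReal_pos (hpos x₀ r hr).ne' (hfin x₀ r).ne
  -- packing bound
  have hpack : ∀ S : Finset X, (∀ x ∈ S, x ∈ ball x₀ r) →
      (∀ x ∈ S, ∀ y ∈ S, x ≠ y → s ≤ dist x y) → (S.card : ℝ) ≤ (8 * r / s) ^ N / Q ^ 2 := by
    intro S hS hsep
    have hdisj : (S : Set X).PairwiseDisjoint fun x => ball x (s / 2) := by
      intro x hx y hy hxy
      have := hsep x hx y hy hxy
      exact ball_disjoint_ball (by linarith)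
    have hsub : (⋃ x ∈ S, ball x (s / 2)) ⊆ ball x₀ (2 * r) := by
      intro z hz
      simp only [mem_iUnion, exists_prop] at hz
      obtain ⟨x, hx, hzx⟩ := hz
      have h1 := hS x hx
      rw [mem_ball] at *
      have := dist_triangle z x x₀
      linarith only [hr, hsr, hzx, h1, this]
    have hlow : ∀ x ∈ S, Q * (s / 2 / (2 * r)) ^ N * M ≤ m.real (ball x (s / 2)) := by
      intro x hx
      have h1 := h.mono hfin hQ1 (x := x) (s := s / 2) (R := 2 * r) (by linarith only [hs]) (by linarith only [hr, hsr]) hr2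
      refine le_trans ?_ h1
      apply mul_le_mul_of_nonneg_left _ (by positivity)
      apply measureReal_mono _ (hfin _ _).ne
      intro z hz
      have h2 := hS x hx
      rw [mem_ball] at *
      have := dist_triangle_right z x x₀
      linarith only [hz, h2, this]
    have hsum : ∑ x ∈ S, m.real (ball x (s / 2)) ≤ m.real (ball x₀ (2 * r)) := by
      rw [← measureReal_biUnion_finset hdisj (fun x _ => measurableSet_ball)
        (fun x _ => (hfin _ _).ne)]
      exact measureReal_mono hsub (hfin _ _).ne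
    have hdouble : m.real (ball x₀ (2 * r)) * (Q * (r / (2 * r)) ^ N) ≤ M := by
      have h1 := h.mono hfin hQ1 (x := x₀) (s := r) (R := 2 * r) hr (by linarith only [hr]) hr2
      linarith only [h1]
    have h3 : (S.card : ℝ) * (Q * (s / 2 / (2 * r)) ^ N * M) ≤ m.real (ball x₀ (2 * r)) := by
      refine le_trans ?_ hsum
      rw [← nsmul_eq_mul]
      exact Finset.card_nsmul_le_sum _ _ _ hlow
    have h4 : (S.card : ℝ) * (Q * (s / 2 / (2 * r)) ^ N * M) * (Q * (r / (2 * r)) ^ N) ≤ M :=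
      (mul_le_mul_of_nonneg_right h3 (by positivity)).trans hdouble
    have h5 : (s / 2 / (2 * r)) ^ N * (r / (2 * r)) ^ N * (8 * r / s) ^ N = 1 := by
      rw [← Real.mul_rpow (by positivity) (by positivity),
        ← Real.mul_rpow (by positivity) (by positivity)]
      have : s / 2 / (2 * r) * (r / (2 * r)) * (8 * r / s) = 1 := by
        field_simp
        norm_num
      rw [this, Real.one_rpow]
    rw [le_div_iff₀ (by positivity)]
    have h6 : (S.card : ℝ) * Q ^ 2 * ((s / 2 / (2 * r)) ^ N * (r / (2 * r)) ^ N) * M ≤ 1 * M := by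
      calc _ = (S.card : ℝ) * (Q * (s / 2 / (2 * r)) ^ N * M) * (Q * (r / (2 * r)) ^ N) := by ring
        _ ≤ M := h4
        _ = _ := (one_mul _).symm
    have h7 := le_of_mul_le_mul_right h6 hMpos
    calc (S.card : ℝ) * Q ^ 2 = ((S.card : ℝ) * Q ^ 2 *
          ((s / 2 / (2 * r)) ^ N * (r / (2 * r)) ^ N)) * (8 * r / s) ^ N := by
          rw [mul_assoc _ _ ((8 * r / s) ^ N), h5, mul_one]
      _ ≤ 1 * (8 * r / s) ^ N := mul_le_mul_of_nonneg_right h7 (by positivity)
      _ = _ := one_mul _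
  -- a maximal separated set
  let P : Set ℕ := {c | ∃ S : Finset X, S.card = c ∧ (∀ x ∈ S, x ∈ ball x₀ r) ∧
    (∀ x ∈ S, ∀ y ∈ S, x ≠ y → s ≤ dist x y)}
  have hPne : P.Nonempty := ⟨0, ∅, by simp only [Finset.card_empty, Finset.notMem_empty, mem_ball, IsEmpty.forall_iff, implies_true, ne_eq, and_self]⟩
  obtain ⟨B, hB⟩ := exists_nat_ge ((8 * r / s) ^ N / Q ^ 2)
  have hPbd : BddAbove P := by
    refine ⟨B, ?_⟩
    rintro c ⟨S, rfl, h1, h2⟩
    have := (hpack S h1 h2).trans hB
    exact_mod_cast this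
  obtain ⟨S, hSc, hS1, hS2⟩ := Nat.sSup_mem hPne hPbd
  refine ⟨S, hpack S hS1 hS2, ?_⟩
  intro z hz
  by_contra hcon
  simp only [mem_iUnion, exists_prop, not_exists, not_and, mem_ball, not_lt] at hcon
  have hzS : z ∉ S := by
    intro hzS
    have := hcon z hzS
    rw [dist_self] at this
    linarith only [hs, this]
  have hmem : (insert z S).card ∈ P := by
    refine ⟨insert z S, rfl, ?_, ?_⟩
    · intro x hx
      rw [Finset.mem_insert] at hx
      rcases hx with rfl | hx
      · exact hz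
      · exact hS1 x hx
    · intro x hx y hy hxy
      rw [Finset.mem_insert] at hx hy
      rcases hx with rfl | hx
      · rcases hy with rfl | hy
        · exact absurd rfl hxy
        · exact hcon y hy
      · rcases hy with rfl | hy
        · rw [dist_comm]
          exact hcon x hx
        · exact hS2 x hx y hy hxy
  have h1 := le_csSup hPbd hmem
  rw [Finset.card_insert_of_notMem hzS, ← hSc] at h1
  omega

/-- upper Ahlfors regularity of the Hausdorff measure -/
lemma hausdorff_upper {n : ℕ} {Q R₀ : ℝ} (h : Contr (μH[(n : ℝ)] : Measure X) n Q R₀)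
    (hfin : ∀ (x : X) (r : ℝ), (μH[(n : ℝ)] : Measure X) (ball x r) < ∞)
    (hpos : ∀ (x : X) (r : ℝ), 0 < r → 0 < (μH[(n : ℝ)] : Measure X) (ball x r))
    (hQ0 : 0 < Q) (hQ1 : Q ≤ 1) (x₀ : X) {r : ℝ} (hr : 0 < r) (hr2 : 2 * r ≤ R₀) :
    (μH[(n : ℝ)] : Measure X).real (ball x₀ r) ≤ 16 ^ n / Q ^ 2 * r ^ n := by
  have hs : ∀ k : ℕ, 0 < r / ((k : ℝ) + 1) := fun k => by positivity
  have hs' : ∀ k : ℕ, r / ((k : ℝ) + 1) ≤ r := fun k => by
    apply div_le_self hr.le
    have : (0 : ℝ) ≤ k := Nat.cast_nonneg k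
    linarith
  choose S hS1 hS2 using fun k : ℕ =>
    exists_net h hfin hpos hQ0 hQ1 x₀ hr hr2 (hs k) (hs' k)
  have hdiam : ∀ (k : ℕ) (i : S k), ediam (ball (i : X) (r / ((k : ℝ) + 1))) ≤
      ENNReal.ofReal (2 * (r / ((k : ℝ) + 1))) := by
    intro k i
    apply ediam_le
    intro y hy z hz
    rw [edist_dist]
    apply ENNReal.ofReal_le_ofReal
    rw [mem_ball] at hy hz
    have := dist_triangle_right y z (i : X)
    linarith
  have htend : Tendsto (fun k : ℕ => ENNReal.ofReal (2 * (r / ((k : ℝ) + 1)))) atTop (𝓝 0) := by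
    rw [← ENNReal.ofReal_zero]
    apply ENNReal.tendsto_ofReal
    have h1 := tendsto_one_div_add_atTop_nhds_zero_nat (𝕜 := ℝ)
    have h2 := h1.const_mul (2 * r)
    rw [mul_zero] at h2
    refine h2.congr fun k => ?_
    ring
  have hH := Measure.hausdorffMeasure_le_liminf_sum (X := X) (ι := fun k : ℕ => S k) (n : ℝ)
    (ball x₀ r) (l := atTop) _ htend (fun k i => ball (i : X) (r / ((k : ℝ) + 1)))
    (Eventually.of_forall hdiam) (Eventually.of_forall fun k => by
      intro z hz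
      have h1 := hS2 k hz
      simp only [mem_iUnion, exists_prop] at h1
      obtain ⟨y, hy, hzy⟩ := h1
      exact mem_iUnion.2 ⟨⟨y, hy⟩, hzy⟩)
  have hsum : ∀ k : ℕ, ∑ i : S k, ediam (ball (i : X) (r / ((k : ℝ) + 1))) ^ (n : ℝ) ≤
      ENNReal.ofReal (16 ^ n / Q ^ 2 * r ^ n) := by
    intro k
    calc ∑ i : S k, ediam (ball (i : X) (r / ((k : ℝ) + 1))) ^ (n : ℝ)
        ≤ ∑ _i : S k, ENNReal.ofReal (2 * (r / ((k : ℝ) + 1))) ^ (n : ℝ) := by
          apply Finset.sum_le_sum
          intro i _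
          exact ENNReal.rpow_le_rpow (hdiam k i) (Nat.cast_nonneg n)
      _ = ENNReal.ofReal ((S k).card * (2 * (r / ((k : ℝ) + 1))) ^ n) := by
          rw [Finset.sum_const, Finset.card_univ, Fintype.card_coe, nsmul_eq_mul,
            ENNReal.rpow_natCast, ← ENNReal.ofReal_pow (by (clear * - hr; positivity)),
            ENNReal.ofReal_mul (Nat.cast_nonneg _), ENNReal.ofReal_natCast]
      _ ≤ _ := by
          apply ENNReal.ofReal_le_ofReal
          have h1 := hS1 k
          rw [Real.rpow_natCast] at h1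
          calc ((S k).card : ℝ) * (2 * (r / ((k : ℝ) + 1))) ^ n
              ≤ (8 * r / (r / ((k : ℝ) + 1))) ^ n / Q ^ 2 * (2 * (r / ((k : ℝ) + 1))) ^ n :=
                mul_le_mul_of_nonneg_right h1 (by positivity)
            _ = ((8 * r / (r / ((k : ℝ) + 1))) * (2 * (r / ((k : ℝ) + 1)))) ^ n / Q ^ 2 := by
                rw [mul_pow _ (2 * (r / ((k : ℝ) + 1))), div_mul_eq_mul_div]
            _ = (16 * r) ^ n / Q ^ 2 := by
                congr 2
                field_simp
                norm_num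
            _ = _ := by rw [mul_pow]; ring
  have hle : (μH[(n : ℝ)] : Measure X) (ball x₀ r) ≤ ENNReal.ofReal (16 ^ n / Q ^ 2 * r ^ n) := by
    refine hH.trans ?_
    calc _ ≤ liminf (fun _ : ℕ => ENNReal.ofReal (16 ^ n / Q ^ 2 * r ^ n)) atTop :=
          liminf_le_liminf (Eventually.of_forall hsum)
      _ = _ := liminf_const _
  exact ENNReal.toReal_le_of_le_ofReal (by positivity) hle

end Vale.Agent.P242
end
end

section

section

open MeasureTheory Set Metric Filter Topology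
open scoped ENNReal

universe u

namespace Vale.Agent.P242

variable {X : Type u} [MetricSpace X] [MeasurableSpace X] [BorelSpace X]

/-- choice of the constant `Q` -/
lemma exists_Q {N : ℝ} : ∃ Q : ℝ, 0 < Q ∧ Q < 1 ∧
    Q⁻¹ ^ 8 - Q * (12 : ℝ) ^ (-N) ≤ 1 - (12 : ℝ) ^ (-N) / 2 := by
  have hc : 0 < (12 : ℝ) ^ (-N) := by positivity
  have hcont : Tendsto (fun Q : ℝ => Q⁻¹ ^ 8 - Q * (12 : ℝ) ^ (-N)) (𝓝[<] 1)
      (𝓝 ((1 : ℝ)⁻¹ ^ 8 - 1 * (12 : ℝ) ^ (-N))) := by
    apply Tendsto.mono_left _ nhdsWithin_le_nhds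
    apply Tendsto.sub
    · exact ((continuousAt_inv₀ one_ne_zero).tendsto).pow 8
    · exact (continuous_mul_const _).tendsto 1
  have h1 : ((1 : ℝ)⁻¹ ^ 8 - 1 * (12 : ℝ) ^ (-N)) < 1 - (12 : ℝ) ^ (-N) / 2 := by
    norm_num
    linarith
  have h2 := hcont.eventually (Iio_mem_nhds h1)
  have h3 : ∀ᶠ Q : ℝ in 𝓝[<] 1, 0 < Q := nhdsWithin_le_nhds (Ioi_mem_nhds one_pos)
  have h4 : ∀ᶠ Q : ℝ in 𝓝[<] 1, Q < 1 := self_mem_nhdsWithin
  obtain ⟨Q, hQ⟩ := (h2.and (h3.and h4)).exists
  exact ⟨Q, hQ.2.1, hQ.2.2, le_of_lt hQ.1⟩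

/-- The key lemma: if the volume ratio at `x` is almost constant between the scales `3s/2` and
`R`, a fixed fraction of the points `y` of `B(x,R)` see `x'` at distance at least `s/4` less
than `x`, where `s = d(x,x')`. -/
theorem pair {m : Measure X} {N Q R₀ : ℝ} (h : Contr m N Q R₀)
    (hfin : ∀ (x : X) (r : ℝ), m (ball x r) < ∞)
    (hQ0 : 0 < Q) (hQ1 : Q < 1)
    (hQN : Q⁻¹ ^ 8 - Q * (12 : ℝ) ^ (-N) ≤ 1 - (12 : ℝ) ^ (-N) / 2)
    {x x' : X} {s R : ℝ} (hs : 0 < s) (hd : dist x x' = s) (hsR : 4 * s ≤ R) (hR : R ≤ R₀)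
    (hV : m.real (ball x (3 * s / 2)) / (3 * s / 2) ^ N ≤
      Q⁻¹ ^ 4 * (m.real (ball x R) / R ^ N)) :
    (12 : ℝ) ^ (-N) / 2 * m.real (ball x R) ≤
      m.real {y ∈ ball x R | s / 4 ≤ dist x y - dist x' y} := by
  have hRpos : 0 < R := by linarith only [hs, hsR]
  set M := m.real (ball x R) with hM
  have hM0 : 0 ≤ M := measureReal_nonneg
  set A : Set X := {y ∈ ball x R | dist x y - dist x' y < s / 4} with hA
  have hAsub : A ⊆ ball x R := fun y hy => hy.1
  have hAm : MeasurableSet A := by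
    have : IsOpen A := isOpen_ball.inter (isOpen_lt
      ((continuous_const.dist continuous_id).sub (continuous_const.dist continuous_id))
      continuous_const)
    exact this.measurableSet
  -- choose `η`
  obtain ⟨η, hη0, hη1, hηN⟩ : ∃ η : ℝ, 0 < η ∧ η < 1 / 20 ∧ (1 + 2 * η) ^ N ≤ Q⁻¹ := by
    have hcont : Tendsto (fun η : ℝ => (1 + 2 * η) ^ N) (𝓝[>] 0) (𝓝 ((1 + 2 * 0) ^ N)) := by
      apply Tendsto.mono_left _ nhdsWithin_le_nhds
      have hc : ContinuousAt (fun η : ℝ => (1 + 2 * η) ^ N) 0 := by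
        apply ContinuousAt.rpow_const
        · fun_prop
        · left; norm_num
      exact hc.tendsto
    have h1 : ((1 : ℝ) + 2 * 0) ^ N < Q⁻¹ := by
      rw [mul_zero, add_zero, Real.one_rpow]
      exact (one_lt_inv₀ hQ0).2 hQ1
    have h2 := hcont.eventually (Iio_mem_nhds h1)
    have h3 : ∀ᶠ η : ℝ in 𝓝[>] 0, η < 1 / 20 := nhdsWithin_le_nhds (Iio_mem_nhds (by norm_num))
    have h4 : ∀ᶠ η : ℝ in 𝓝[>] 0, 0 < η := self_mem_nhdsWithin
    obtain ⟨η, hη⟩ := (h2.and (h3.and h4)).exists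
    exact ⟨η, hη.2.2, hη.2.1, le_of_lt hη.1⟩
  set κ := η * s with hκ
  have hκ0 : 0 < κ := by (clear * - hη0 hs; positivity)
  have hκs : κ < s / 20 := by rw [hκ]; nlinarith only [hs, hη1]
  set t := 3 * s / (2 * R) with ht
  have ht0 : 0 < t := by positivity
  have ht1 : t < 1 := by
    rw [ht, div_lt_one (by positivity)]
    linarith only [hsR, hκ0, hκs]
  have htR : t * R = 3 * s / 2 := by
    rw [ht]; (clear * - hRpos hs; field_simp)
  have hcon := h x R κ t hRpos hR hκ0 (by linarith only [hsR, hR, hκ0, hκs]) ht0 ht1 A hAm hAsub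
  -- the intermediate set avoids a ball around `x'`
  have hdisj : Disjoint (midSet (ball x κ) A t κ) (ball x' (s / 4)) := by
    rw [Set.disjoint_left]
    rintro z ⟨x₀, hx₀, y, ⟨hyR, hyA⟩, h1, h2⟩ hz
    rw [mem_ball] at hx₀ hyR hz
    rw [dist_comm] at hz
    have a1 := (abs_lt.1 h1).2
    have a2 := (abs_lt.1 h2).2
    have a3 := dist_triangle x x₀ z
    rw [dist_comm x x₀] at a3
    have a4 := dist_triangle x₀ x y
    have a5 := dist_triangle x' z y
    have a6 : t * dist x₀ y ≤ t * (κ + dist x y) := mul_le_mul_of_nonneg_left (by linarith only [hx₀, a4]) ht0.le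
    have a7 : (1 - t) * dist x₀ y ≤ (1 - t) * (κ + dist x y) :=
      mul_le_mul_of_nonneg_left (by linarith only [hx₀, a4]) (by linarith only [ht1])
    have a8 : t * κ ≤ κ := by nlinarith only [hκ0, ht1]
    have a9 := dist_triangle x z x'
    rw [hd, dist_comm z x'] at a9
    -- d(x', z) > d(x, z) - s/4 - 5κ
    linarith
  have hball : midSet (ball x κ) A t κ ∪ ball x' (s / 4) ⊆ ball x (3 * s / 2 + 3 * κ) := by
    apply union_subset
    · have := midSet_subset (x := x) (R := R) (A := A) ht0 ht1 hκ0 hAsub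
      rwa [htR] at this
    · intro z hz
      rw [mem_ball] at hz ⊢
      have := dist_triangle z x' x
      rw [dist_comm x' x, hd] at this
      linarith only [hκ0, hκs, hz, this]
  have hsum : m.real (midSet (ball x κ) A t κ) + m.real (ball x' (s / 4)) ≤
      m.real (ball x (3 * s / 2 + 3 * κ)) := by
    rw [← measureReal_union hdisj measurableSet_ball
      ((measure_mono (subset_union_left.trans hball)).trans_lt (hfin _ _)).ne (hfin _ _).ne]
    exact measureReal_mono hball (hfin _ _).ne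
  -- volume of the big ball
  have hbig : m.real (ball x (3 * s / 2 + 3 * κ)) ≤ Q⁻¹ ^ 6 * (3 * s / 2 / R) ^ N * M := by
    have h1 := h.mono hfin hQ1.le (x := x) (s := 3 * s / 2) (R := 3 * s / 2 + 3 * κ)
      (by positivity) (by linarith only [hκ0]) (by linarith only [hsR, hR, hκ0, hκs])
    have h2 : 3 * s / 2 / (3 * s / 2 + 3 * κ) = (1 + 2 * η)⁻¹ := by
      rw [hκ]
      (clear * - hs hη0; field_simp)
    rw [h2, Real.inv_rpow (by positivity)] at h1
    have h3 : (1 + 2 * η) ^ N > 0 := by positivity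
    have h4 : m.real (ball x (3 * s / 2 + 3 * κ)) ≤
        Q⁻¹ * (1 + 2 * η) ^ N * m.real (ball x (3 * s / 2)) := by
      have h5 : m.real (ball x (3 * s / 2 + 3 * κ)) =
          Q⁻¹ * (1 + 2 * η) ^ N * (Q * ((1 + 2 * η) ^ N)⁻¹ * m.real (ball x (3 * s / 2 + 3 * κ))) := by
        (clear * - hQ0 hη0; field_simp)
      rw [h5]
      exact mul_le_mul_of_nonneg_left h1 (by positivity)
    have h6 : m.real (ball x (3 * s / 2)) ≤ Q⁻¹ ^ 4 * (3 * s / 2 / R) ^ N * M := by
      rw [div_le_iff₀ (by positivity)] at hV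
      refine hV.trans (le_of_eq ?_)
      rw [Real.div_rpow (by positivity) hRpos.le]
      ring
    calc m.real (ball x (3 * s / 2 + 3 * κ))
        ≤ Q⁻¹ * (1 + 2 * η) ^ N * m.real (ball x (3 * s / 2)) := h4
      _ ≤ Q⁻¹ * Q⁻¹ * (Q⁻¹ ^ 4 * (3 * s / 2 / R) ^ N * M) := by
          apply mul_le_mul _ h6 measureReal_nonneg (by positivity)
          exact mul_le_mul_of_nonneg_left hηN (by positivity)
      _ = _ := by ring
  -- volume of the small ball
  have hsmall : Q ^ 2 * (s / 8 / R) ^ N * M ≤ m.real (ball x' (s / 4)) := by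
    have h1 := h.mono hfin hQ1.le (x := x') (s := s / 4) (R := R / 2) (by positivity)
      (by linarith only [hsR, hκ0, hκs]) (by linarith only [hsR, hR, hκ0, hκs])
    have h2 := h.mono hfin hQ1.le (x := x) (s := R / 4) (R := R) (by positivity)
      (by linarith only [hsR, hκ0, hκs]) hR
    have h3 : m.real (ball x (R / 4)) ≤ m.real (ball x' (R / 2)) := by
      apply measureReal_mono _ (hfin _ _).ne
      intro z hz
      rw [mem_ball] at hz ⊢
      have := dist_triangle z x x'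
      linarith only [hd, hsR, hz, this]
    calc Q ^ 2 * (s / 8 / R) ^ N * M = Q * (s / 4 / (R / 2)) ^ N * (Q * (R / 4 / R) ^ N * M) := by
          have : s / 8 / R = (s / 4 / (R / 2)) * (R / 4 / R) := by
            field_simp
            norm_num
          rw [this, Real.mul_rpow (by positivity) (by positivity)]
          ring
      _ ≤ Q * (s / 4 / (R / 2)) ^ N * m.real (ball x' (R / 2)) := by
          apply mul_le_mul_of_nonneg_left (h2.trans h3) (by positivity)
      _ ≤ _ := h1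
  -- bound for the bad set
  have hAle : m.real A ≤ (Q⁻¹ ^ 7 - Q * (12 : ℝ) ^ (-N)) * M := by
    have e0 : t = 3 * s / 2 / R := by rw [ht]; (clear * - hRpos hs; field_simp)
    have e1 : Q * t ^ N * m.real A ≤ Q⁻¹ ^ 6 * t ^ N * M - Q ^ 2 * (s / 8 / R) ^ N * M := by
      rw [← e0] at hbig
      linarith only [hcon, hsum, hbig, hsmall]
    have e2 : (s / 8 / R) ^ N = t ^ N * (12 : ℝ) ^ (-N) := by
      have : s / 8 / R = t * (12 : ℝ)⁻¹ := by rw [e0]; field_simp; norm_num
      rw [this, Real.mul_rpow ht0.le (by norm_num), Real.inv_rpow (by norm_num),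
        Real.rpow_neg (by norm_num)]
    rw [e2] at e1
    have htN : 0 < Q * t ^ N := by positivity
    have e3 : Q * t ^ N * m.real A ≤ Q * t ^ N * ((Q⁻¹ ^ 7 - Q * (12 : ℝ) ^ (-N)) * M) := by
      refine e1.trans (le_of_eq ?_)
      have : Q * Q⁻¹ ^ 7 = Q⁻¹ ^ 6 := by field_simp
      calc _ = t ^ N * M * (Q⁻¹ ^ 6 - Q ^ 2 * (12 : ℝ) ^ (-N)) := by ring
        _ = _ := by rw [← this]; ring
    exact le_of_mul_le_mul_left e3 htN
  have hQ67 : Q⁻¹ ^ 7 ≤ Q⁻¹ ^ 8 :=
    pow_le_pow_right₀ (one_le_inv_iff₀.2 ⟨hQ0, hQ1.le⟩) (by norm_num)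
  have hAle2 : m.real A ≤ (1 - (12 : ℝ) ^ (-N) / 2) * M := by
    refine hAle.trans ?_
    apply mul_le_mul_of_nonneg_right _ hM0
    linarith only [hQN, hQ67]
  -- complement
  have hsplit : M ≤ m.real A + m.real {y ∈ ball x R | s / 4 ≤ dist x y - dist x' y} := by
    have : ball x R ⊆ A ∪ {y ∈ ball x R | s / 4 ≤ dist x y - dist x' y} := by
      intro y hy
      by_cases hy2 : dist x y - dist x' y < s / 4
      · exact Or.inl ⟨hy, hy2⟩
      · exact Or.inr ⟨hy, not_lt.1 hy2⟩
    refine (measureReal_mono this ?_).trans (measureReal_union_le _ _)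
    apply ((measure_mono (union_subset hAsub (fun y hy => hy.1))).trans_lt (hfin x R)).ne
  linarith only [hAle2, hsplit]

end Vale.Agent.P242
end
end

section

section

open MeasureTheory Set Metric Filter Topology
open scoped ENNReal

universe u

namespace Vale.Agent.P242

variable {X : Type u} [MetricSpace X] [MeasurableSpace X]

/-- the set whose supremum is the scale function -/
def scaleSet (m : Measure X) (N L R₁ τ : ℝ) (x : X) : Set ℝ :=
  insert 0 {v | ∃ (z : X) (R : ℝ), 0 < R ∧ R ≤ R₁ ∧ τ ≤ m.real (ball z R) / R ^ N ∧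
    v = R - L * dist x z}

/-- The scale function of level `τ`: roughly the largest scale at which the volume ratio at `x`
is at least `τ`. -/
noncomputable def scaleFn (m : Measure X) (N L R₁ τ : ℝ) (x : X) : ℝ :=
  sSup (scaleSet m N L R₁ τ x)

variable {m : Measure X} {N L R₁ τ : ℝ}

lemma scaleSet_le (hL : 0 ≤ L) (hR : 0 ≤ R₁) {x : X} {v : ℝ}
    (hv : v ∈ scaleSet m N L R₁ τ x) : v ≤ R₁ := by
  rcases hv with rfl | ⟨z, R, h0, h1, -, rfl⟩
  · exact hR
  · have := mul_nonneg hL (dist_nonneg (x := x) (y := z))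
    linarith

lemma scaleSet_bdd (hL : 0 ≤ L) (hR : 0 ≤ R₁) (x : X) : BddAbove (scaleSet m N L R₁ τ x) :=
  ⟨R₁, fun _ hv => scaleSet_le hL hR hv⟩

lemma scaleSet_nonempty (x : X) : (scaleSet m N L R₁ τ x).Nonempty := ⟨0, Or.inl rfl⟩

lemma scaleFn_nonneg (hL : 0 ≤ L) (hR : 0 ≤ R₁) (x : X) : 0 ≤ scaleFn m N L R₁ τ x :=
  le_csSup (scaleSet_bdd hL hR x) (Or.inl rfl)

lemma scaleFn_le (hL : 0 ≤ L) (hR : 0 ≤ R₁) (x : X) : scaleFn m N L R₁ τ x ≤ R₁ :=
  csSup_le (scaleSet_nonempty x) fun _ hv => scaleSet_le hL hR hv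

lemma scaleFn_sub_le (hL : 0 ≤ L) (hR : 0 ≤ R₁) (x x' : X) :
    scaleFn m N L R₁ τ x - L * dist x x' ≤ scaleFn m N L R₁ τ x' := by
  rw [sub_le_iff_le_add]
  apply csSup_le (scaleSet_nonempty x)
  rintro v (rfl | ⟨z, R, h0, h1, h2, rfl⟩)
  · have h3 := scaleFn_nonneg (m := m) (N := N) (τ := τ) hL hR x'
    have := mul_nonneg hL (dist_nonneg (x := x) (y := x'))
    linarith
  · have h3 : R - L * dist x' z ≤ scaleFn m N L R₁ τ x' :=
      le_csSup (scaleSet_bdd hL hR x') (Or.inr ⟨z, R, h0, h1, h2, rfl⟩)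
    have h4 : dist x' z ≤ dist x x' + dist x z := dist_triangle_left x' z x
    have := mul_le_mul_of_nonneg_left h4 hL
    linarith only [h3, this]

lemma scaleFn_lip (hL : 0 ≤ L) (hR : 0 ≤ R₁) (x x' : X) :
    |scaleFn m N L R₁ τ x - scaleFn m N L R₁ τ x'| ≤ L * dist x x' := by
  rw [abs_le]
  have h1 := scaleFn_sub_le (m := m) (N := N) (τ := τ) hL hR x x'
  have h2 := scaleFn_sub_le (m := m) (N := N) (τ := τ) hL hR x' x
  rw [dist_comm x' x] at h2
  constructor <;> linarith

/-- (P1) -/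
lemma le_scaleFn (hL : 0 ≤ L) (hR : 0 ≤ R₁) {x : X} {R : ℝ} (h0 : 0 < R) (h1 : R ≤ R₁)
    (h : τ ≤ m.real (ball x R) / R ^ N) : R ≤ scaleFn m N L R₁ τ x :=
  le_csSup (scaleSet_bdd hL hR x) (Or.inr ⟨x, R, h0, h1, h, by rw [dist_self]; ring⟩)

/-- (P2) -/
lemma scaleFn_ratio [BorelSpace X] {Q R₀ : ℝ} (h : Contr m N Q R₀)
    (hfin : ∀ (x : X) (r : ℝ), m (ball x r) < ∞) (hQ0 : 0 < Q) (hQ1 : Q ≤ 1)
    (hL : 1 < L) (hLN : Q ≤ (1 - L⁻¹) ^ N) (hR1 : R₁ ≤ R₀) (hτ : 0 ≤ τ)
    {x : X} {s : ℝ} (hs : 0 < s) (hsx : s < scaleFn m N L R₁ τ x) :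
    Q ^ 3 * τ ≤ m.real (ball x s) / s ^ N := by
  obtain ⟨v, hv, hsv⟩ := exists_lt_of_lt_csSup (scaleSet_nonempty x) hsx
  rcases hv with rfl | ⟨z, R, h0, h1, h2, rfl⟩
  · exact absurd hs (not_lt.2 hsv.le)
  have hL0 : 0 < L := by linarith only [hL]
  have hd : L * dist x z < R := by linarith only [hs, hsv]
  have hdz : dist x z ≤ L⁻¹ * R := by
    rw [← div_eq_inv_mul, le_div_iff₀ hL0]
    linarith only [hs, hsv]
  have hsR : s ≤ R := by
    have := mul_nonneg hL0.le (dist_nonneg (x := x) (y := z))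
    linarith only [hsv, this]
  have hLi : L⁻¹ < 1 := inv_lt_one_of_one_lt₀ hL
  have hc : 0 < 1 - L⁻¹ := by linarith only [hLi]
  have hLi0 : 0 < L⁻¹ := inv_pos.2 hL0
  -- ball x R contains ball z ((1 - L⁻¹) R)
  have e1 : m.real (ball z ((1 - L⁻¹) * R)) ≤ m.real (ball x R) := by
    apply measureReal_mono _ (hfin _ _).ne
    intro y hy
    rw [mem_ball] at hy ⊢
    have := dist_triangle y z x
    rw [dist_comm z x] at this
    nlinarith only [hdz, hy, this]
  have e2 := h.mono hfin hQ1 (x := z) (s := (1 - L⁻¹) * R) (R := R) (by (clear * - hLi h0; positivity))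
    (by nlinarith only [h0, hLi0]) (h1.trans hR1)
  have e3 : (1 - L⁻¹) * R / R = 1 - L⁻¹ := by (clear * - hL h0; field_simp)
  rw [e3] at e2
  have e4 := h.mono hfin hQ1 (x := x) (s := s) (R := R) hs hsR (h1.trans hR1)
  have hRN : 0 < R ^ N := Real.rpow_pos_of_pos h0 _
  have hsN : 0 < s ^ N := Real.rpow_pos_of_pos hs _
  rw [le_div_iff₀ hRN] at h2
  rw [le_div_iff₀ hsN]
  calc Q ^ 3 * τ * s ^ N = Q * (s / R) ^ N * (Q * Q * (τ * R ^ N)) := by
        rw [Real.div_rpow hs.le h0.le]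
        (clear * - h0 hs hQ0; field_simp)
    _ ≤ Q * (s / R) ^ N * (Q * (1 - L⁻¹) ^ N * m.real (ball z R)) := by
        apply mul_le_mul_of_nonneg_left _ (by positivity)
        apply mul_le_mul _ h2 (by (clear * - hτ h0; positivity)) (by positivity)
        exact mul_le_mul_of_nonneg_left hLN hQ0.le
    _ ≤ Q * (s / R) ^ N * m.real (ball x R) :=
        mul_le_mul_of_nonneg_left (e2.trans e1) (by positivity)
    _ ≤ _ := e4

/-- existence of `L` -/
lemma exists_L {Q : ℝ} (hQ : Q < 1) (N : ℝ) : ∃ L : ℝ, 1 < L ∧ Q ≤ (1 - L⁻¹) ^ N := by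
  have hcont : Tendsto (fun L : ℝ => (1 - L⁻¹) ^ N) atTop (𝓝 ((1 - 0) ^ N)) := by
    apply Tendsto.rpow_const
    · exact tendsto_const_nhds.sub tendsto_inv_atTop_zero
    · left; norm_num
  have h1 : Q < ((1 : ℝ) - 0) ^ N := by
    rw [sub_zero, Real.one_rpow]; exact hQ
  have h2 := hcont.eventually (Ioi_mem_nhds h1)
  obtain ⟨L, hL⟩ := (h2.and (eventually_gt_atTop 1)).exists
  exact ⟨L, hL.2, le_of_lt hL.1⟩

end Vale.Agent.P242
end
end

section

section

open MeasureTheory Set Metric Filter Topology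
open scoped ENNReal

universe u

namespace Vale.Agent.P242

variable {X : Type u}

section L2

variable [MeasurableSpace X] {μ : Measure X}

lemma memLp_of_bdd_supp {f : X → ℝ} (hf : Measurable f) {S : Set X} (hS : MeasurableSet S)
    (hμ : μ S < ∞) {C : ℝ} (hC : ∀ y, |f y| ≤ C) (h0 : ∀ y ∉ S, f y = 0) : MemLp f 2 μ := by
  have h1 : S.indicator f = f := by
    ext y
    by_cases hy : y ∈ S
    · rw [indicator_of_mem hy]
    · rw [indicator_of_notMem hy, h0 y hy]
  rw [← h1, memLp_indicator_iff_restrict hS]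
  have : IsFiniteMeasure (μ.restrict S) := ⟨by rwa [Measure.restrict_apply_univ]⟩
  exact MemLp.of_bound hf.aestronglyMeasurable C (Eventually.of_forall hC)

lemma norm_sq_toLp {f : X → ℝ} (hf : MemLp f 2 μ) : ‖hf.toLp f‖ ^ 2 = ∫ y, f y ^ 2 ∂μ := by
  rw [← real_inner_self_eq_norm_sq, L2.inner_def]
  apply integral_congr_ae
  filter_upwards [hf.coeFn_toLp] with y hy
  rw [hy]
  simp [sq]

lemma norm_sq_toLp_le {f : X → ℝ} (hf : MemLp f 2 μ) {S : Set X} (hμ : μ S < ∞) {C : ℝ}
    (hC : ∀ y, |f y| ≤ C) (h0 : ∀ y ∉ S, f y = 0) : ‖hf.toLp f‖ ^ 2 ≤ C ^ 2 * μ.real S := by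
  rw [norm_sq_toLp, ← setIntegral_eq_integral_of_forall_compl_eq_zero (s := S)
    (fun y hy => by rw [h0 y hy]; norm_num)]
  refine (le_abs_self _).trans ?_
  rw [← Real.norm_eq_abs]
  apply norm_setIntegral_le_of_norm_le_const hμ
  intro y _
  rw [Real.norm_eq_abs, abs_pow]
  exact pow_le_pow_left₀ (abs_nonneg _) (hC y) 2

lemma le_norm_sq_toLp {f : X → ℝ} (hf : MemLp f 2 μ) {T : Set X} (hT : MeasurableSet T)
    (hμ : μ T ≠ ∞) {c : ℝ} (hc0 : 0 ≤ c) (hc : ∀ y ∈ T, c ≤ |f y|) :
    c ^ 2 * μ.real T ≤ ‖hf.toLp f‖ ^ 2 := by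
  rw [norm_sq_toLp]
  have hint : Integrable (fun y => f y ^ 2) μ := hf.integrable_sq
  have h1 : ∀ y ∈ T, c ^ 2 ≤ f y ^ 2 := by
    intro y hy
    rw [← sq_abs (f y)]
    exact pow_le_pow_left₀ hc0 (hc y hy) 2
  have h2 := setIntegral_ge_of_const_le hT hμ h1 hint.integrableOn
  rw [smul_eq_mul, mul_comm] at h2
  exact h2.trans (setIntegral_le_integral hint (Eventually.of_forall fun y => sq_nonneg _))

end L2

section weight

variable [MeasurableSpace X]

/-- the weighted measure `ρ ^ (-N) • m` -/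
noncomputable def wMeas (m : Measure X) (N : ℝ) (ρ : X → ℝ) : Measure X :=
  m.withDensity fun y => ENNReal.ofReal (ρ y ^ (-N))

lemma wMeas_le {m : Measure X} {N : ℝ} (hN : 0 < N) {ρ : X → ℝ} {S : Set X}
    (hS : MeasurableSet S) (hm : m S ≠ ∞) {c : ℝ} (hc : 0 < c) (h : ∀ y ∈ S, c ≤ ρ y) :
    wMeas m N ρ S ≤ ENNReal.ofReal (c ^ (-N) * m.real S) := by
  rw [wMeas, withDensity_apply _ hS]
  calc ∫⁻ y in S, ENNReal.ofReal (ρ y ^ (-N)) ∂m ≤ ∫⁻ _ in S, ENNReal.ofReal (c ^ (-N)) ∂m := by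
        apply setLIntegral_mono' hS
        intro y hy
        apply ENNReal.ofReal_le_ofReal
        exact Real.rpow_le_rpow_of_nonpos hc (h y hy) (by linarith)
    _ = _ := by
        rw [setLIntegral_const, ENNReal.ofReal_mul (by positivity), Measure.real,
          ENNReal.ofReal_toReal hm]

lemma le_wMeas {m : Measure X} {N : ℝ} (hN : 0 < N) {ρ : X → ℝ} {S : Set X}
    (hS : MeasurableSet S) (hm : m S ≠ ∞) {C : ℝ} (h : ∀ y ∈ S, 0 < ρ y ∧ ρ y ≤ C)
    (hC : 0 < C) :
    ENNReal.ofReal (C ^ (-N) * m.real S) ≤ wMeas m N ρ S := by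
  rw [wMeas, withDensity_apply _ hS]
  calc ENNReal.ofReal (C ^ (-N) * m.real S) = ∫⁻ _ in S, ENNReal.ofReal (C ^ (-N)) ∂m := by
        rw [setLIntegral_const, ENNReal.ofReal_mul (by positivity), Measure.real,
          ENNReal.ofReal_toReal hm]
    _ ≤ _ := by
        apply setLIntegral_mono' hS
        intro y hy
        apply ENNReal.ofReal_le_ofReal
        exact Real.rpow_le_rpow_of_nonpos (h y hy).1 (h y hy).2 (by linarith)

end weight

variable [MetricSpace X] [MeasurableSpace X] [BorelSpace X]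

/-- truncated distance functions with radius adapted to the scale function -/
noncomputable def bump (ρ : X → ℝ) (L : ℝ) (x y : X) : ℝ := max 0 (ρ x / (8 * L) - dist x y)

omit [MeasurableSpace X] [BorelSpace X] in
lemma bump_continuous (ρ : X → ℝ) (L : ℝ) (x : X) : Continuous (bump ρ L x) :=
  continuous_const.max (continuous_const.sub (continuous_const.dist continuous_id))

omit [MeasurableSpace X] [BorelSpace X] in
lemma bump_nonneg (ρ : X → ℝ) (L : ℝ) (x y : X) : 0 ≤ bump ρ L x y := le_max_left _ _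

omit [MeasurableSpace X] [BorelSpace X] in
lemma bump_eq_zero {ρ : X → ℝ} {L : ℝ} {x y : X} (h : y ∉ ball x (ρ x / (8 * L))) :
    bump ρ L x y = 0 := by
  rw [mem_ball, dist_comm, not_lt] at h
  exact max_eq_left (by linarith)

omit [MeasurableSpace X] [BorelSpace X] in
lemma bump_sub_le {ρ : X → ℝ} {L : ℝ} (hL : 0 < L)
    (hρ : ∀ x x', |ρ x - ρ x'| ≤ L * dist x x') (x x' y : X) :
    |bump ρ L x y - bump ρ L x' y| ≤ 2 * dist x x' := by
  have h1 := abs_max_sub_max_le_abs (ρ x / (8 * L) - dist x y) (ρ x' / (8 * L) - dist x' y) 0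
  have e : bump ρ L x y - bump ρ L x' y = max (ρ x / (8 * L) - dist x y) 0 -
      max (ρ x' / (8 * L) - dist x' y) 0 := by
    rw [bump, bump, max_comm 0, max_comm 0]
  rw [e]
  refine h1.trans ?_
  have h2 : |ρ x / (8 * L) - ρ x' / (8 * L)| ≤ dist x x' / 8 := by
    rw [← sub_div, abs_div, abs_of_pos (by positivity : 0 < 8 * L), div_le_iff₀ (by positivity)]
    refine (hρ x x').trans (le_of_eq ?_)
    ring
  have h3 := abs_dist_sub_le x x' y
  have h4 : ρ x / (8 * L) - dist x y - (ρ x' / (8 * L) - dist x' y) =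
      (ρ x / (8 * L) - ρ x' / (8 * L)) - (dist x y - dist x' y) := by ring
  rw [h4]
  refine (abs_sub _ _).trans ?_
  have := dist_nonneg (x := x) (y := x')
  linarith only [h2, h3, this]

omit [MeasurableSpace X] [BorelSpace X] in
lemma bump_diff_small {ρ : X → ℝ} {L : ℝ} (hL : 1 < L)
    (hρ : ∀ x x', |ρ x - ρ x'| ≤ L * dist x x') {x x' y : X} (hr0 : 0 < ρ x)
    (hy1 : dist x y < ρ x / (16 * L)) (hy2 : dist x x' / 4 ≤ dist x y - dist x' y) :
    1 / (8 * L) * dist x x' ≤ |bump ρ L x y - bump ρ L x' y| := by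
  have hL0 : 0 < L := by linarith only [hL]
  have hs := dist_nonneg (x := x) (y := x')
  have e1 : bump ρ L x y = ρ x / (8 * L) - dist x y := by
    apply max_eq_right
    have : ρ x / (16 * L) ≤ ρ x / (8 * L) := by
      gcongr
      norm_num
    linarith only [hy1, this]
  have e2 : ρ x' / (8 * L) - dist x' y ≤ bump ρ L x' y := le_max_right _ _
  have e3 : ρ x / (8 * L) - dist x x' / 8 ≤ ρ x' / (8 * L) := by
    have := (abs_le.1 (hρ x x')).2
    rw [le_div_iff₀ (by positivity), sub_mul, div_mul_cancel₀ _ (by positivity)]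
    linarith only [this]
  have e4 : 1 / (8 * L) * dist x x' ≤ dist x x' / 8 := by
    rw [div_mul_eq_mul_div, one_mul, div_le_div_iff₀ (by positivity) (by positivity)]
    nlinarith only [hL, hs]
  rw [abs_sub_comm]
  refine le_trans ?_ (le_abs_self _)
  linarith

omit [MeasurableSpace X] [BorelSpace X] in
lemma bump_diff_large {ρ : X → ℝ} {L : ℝ} (hL : 1 < L)
    (hρ : ∀ x x', |ρ x - ρ x'| ≤ L * dist x x') {x x' y : X} (hs0 : 0 < dist x x')
    (hsr : 3 * dist x x' / 2 ≤ ρ x) (hy : dist x y < dist x x' / (16 * L)) :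
    1 / (8 * L) * dist x x' ≤ |bump ρ L x y - bump ρ L x' y| := by
  have hL0 : 0 < L := by linarith only [hL]
  have e1 : ρ x / (8 * L) - dist x y ≤ bump ρ L x y := le_max_right _ _
  have e3 : ρ x' / (8 * L) ≤ ρ x / (8 * L) + dist x x' / 8 := by
    have := (abs_le.1 (hρ x x')).1
    rw [div_le_iff₀ (by positivity), add_mul, div_mul_cancel₀ _ (by positivity)]
    linarith only [this]
  have e4 : dist x x' - dist x x' / (16 * L) ≤ dist x' y := by
    have := dist_triangle_right x x' y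
    linarith only [hy, this]
  have e5 : 3 * (dist x x' / (16 * L)) ≤ ρ x / (8 * L) := by
    have : 3 * (dist x x' / (16 * L)) = (3 * dist x x' / 2) / (8 * L) := by
      field_simp
      norm_num
    rw [this]
    gcongr
  have e6 : 1 / (8 * L) * dist x x' = 2 * (dist x x' / (16 * L)) := by
    field_simp
    norm_num
  have e7 : dist x x' / (16 * L) ≤ dist x x' / 16 := by
    apply div_le_div_of_nonneg_left hs0.le (by norm_num)
    linarith only [hL]
  refine le_trans ?_ (le_abs_self _)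
  have e8 : bump ρ L x' y ≤
      max 0 (ρ x / (8 * L) + dist x x' / 8 - (dist x x' - dist x x' / (16 * L))) :=
    max_le_max le_rfl (by linarith only [e3, e4])
  rcases le_total 0 (ρ x / (8 * L) + dist x x' / 8 - (dist x x' - dist x x' / (16 * L))) with
    h9 | h9
  · rw [max_eq_right h9] at e8
    linarith only [hs0, hy, e1, e6, e7, e8]
  · rw [max_eq_left h9] at e8
    linarith only [hy, e1, e5, e6, e8]

lemma pow_aux {N L : ℝ} (hL : 0 < L) {u : ℝ} (hu : 0 < u) :
    (64 * L) ^ (-(2 * N)) * u ^ N = (u / (64 * L) ^ 2) ^ N := by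
  rw [Real.div_rpow hu.le (by positivity), ← Real.rpow_natCast, ← Real.rpow_mul (by positivity),
    Real.rpow_neg (by positivity)]
  push_cast
  rw [div_eq_mul_inv, mul_comm]

/-- The block map of level `τ`: bounds. -/
theorem block {m : Measure X} {N Q R₀ : ℝ} (h : Contr m N Q R₀)
    (hfin : ∀ (x : X) (r : ℝ), m (ball x r) < ∞) (hN : 0 < N) (hQ0 : 0 < Q) (hQ1 : Q < 1)
    (hQN : Q⁻¹ ^ 8 - Q * (12 : ℝ) ^ (-N) ≤ 1 - (12 : ℝ) ^ (-N) / 2)
    {L R₁ : ℝ} (hL : 1 < L) (hLN : Q ≤ (1 - L⁻¹) ^ N) (hR₁ : 0 < R₁) (hR₁₀ : R₁ ≤ R₀)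
    {a b : ℝ} (ha : 0 < a) (hb : 0 < b)
    (hub : ∀ (x : X) (r : ℝ), 0 < r → r ≤ R₁ → m.real (ball x r) ≤ b * r ^ N)
    {τ : ℝ} (hτ : 0 < τ) :
    ∃ F : X → Lp ℝ 2 (wMeas m N (scaleFn m N L R₁ τ)),
      (∀ x x' : X, ‖F x - F x'‖ ^ 2 ≤ 8 * b * dist x x' ^ 2) ∧
      (∀ x x' : X, x ≠ x' → 3 * dist x x' / 2 ≤ R₁ →
        (∀ r : ℝ, 0 < r → r ≤ R₁ → a ≤ m.real (ball x r) / r ^ N) →
        τ ≤ m.real (ball x (3 * dist x x' / 2)) / (3 * dist x x' / 2) ^ N →
        m.real (ball x (3 * dist x x' / 2)) / (3 * dist x x' / 2) ^ N ≤ Q⁻¹ * τ →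
        (1 / (8 * L)) ^ 2 * (a * (12 : ℝ) ^ (-N) / 2 * (64 * L) ^ (-(2 * N))) * dist x x' ^ 2 ≤
          ‖F x - F x'‖ ^ 2) := by
  set ρ := scaleFn m N L R₁ τ with hρ
  set μ := wMeas m N ρ with hμ
  have hL0 : 0 < L := by linarith only [hL]
  have hlip : ∀ x x', |ρ x - ρ x'| ≤ L * dist x x' := scaleFn_lip hL0.le hR₁.le
  have hρ0 : ∀ x, 0 ≤ ρ x := scaleFn_nonneg hL0.le hR₁.le
  have hρR : ∀ x, ρ x ≤ R₁ := scaleFn_le hL0.le hR₁.le
  -- the measure of the supporting balls
  have hμball : ∀ x : X, μ (ball x (ρ x / (8 * L))) ≤ ENNReal.ofReal b := by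
    intro x
    rcases (hρ0 x).eq_or_lt with h0 | h0
    · rw [← h0, zero_div, ball_zero, measure_empty]
      exact bot_le
    · have e1 : ∀ y ∈ ball x (ρ x / (8 * L)), 7 / 8 * ρ x ≤ ρ y := by
        intro y hy
        rw [mem_ball, dist_comm, lt_div_iff₀ (by positivity)] at hy
        have e2 := (abs_le.1 (hlip x y)).2
        nlinarith only [hy, e2]
      refine (wMeas_le hN measurableSet_ball (hfin _ _).ne (by (clear * - h0; positivity)) e1).trans ?_
      apply ENNReal.ofReal_le_ofReal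
      have e3 : ρ x / (8 * L) ≤ R₁ := by
        rw [div_le_iff₀ (by positivity)]
        have := hρR x
        nlinarith only [this, hR₁, hL]
      have e4 := hub x (ρ x / (8 * L)) (by (clear * - h0 hL; positivity)) e3
      have e5 : (ρ x / (8 * L)) ^ N ≤ (7 / 8 * ρ x) ^ N := by
        apply Real.rpow_le_rpow (by positivity) _ hN.le
        rw [div_le_iff₀ (by positivity)]
        nlinarith only [h0, hL]
      have e6 : (7 / 8 * ρ x) ^ (-N) * (7 / 8 * ρ x) ^ N = 1 := by
        rw [← Real.rpow_add (by (clear * - h0; positivity)), neg_add_cancel, Real.rpow_zero]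
      calc (7 / 8 * ρ x) ^ (-N) * m.real (ball x (ρ x / (8 * L)))
          ≤ (7 / 8 * ρ x) ^ (-N) * (b * (7 / 8 * ρ x) ^ N) := by
            apply mul_le_mul_of_nonneg_left _ (by positivity)
            exact e4.trans (mul_le_mul_of_nonneg_left e5 hb.le)
        _ = b * ((7 / 8 * ρ x) ^ (-N) * (7 / 8 * ρ x) ^ N) := by ring
        _ = b := by rw [e6, mul_one]
  have hfinb : ∀ x : X, μ (ball x (ρ x / (8 * L))) < ∞ := fun x =>
    (hμball x).trans_lt ENNReal.ofReal_lt_top
  have hmem : ∀ x : X, MemLp (bump ρ L x) 2 μ := by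
    intro x
    apply memLp_of_bdd_supp (bump_continuous ρ L x).measurable measurableSet_ball (hfinb x)
      (C := R₁) _ (fun y hy => bump_eq_zero hy)
    intro y
    rw [abs_of_nonneg (bump_nonneg _ _ _ _)]
    apply max_le hR₁.le
    have e1 : ρ x / (8 * L) ≤ R₁ := by
      rw [div_le_iff₀ (by positivity)]
      have := hρR x
      nlinarith only [this, hR₁, hL]
    have := dist_nonneg (x := x) (y := y)
    linarith only [e1, this]
  refine ⟨fun x => (hmem x).toLp (bump ρ L x), ?_, ?_⟩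
  · intro x x'
    rw [← MemLp.toLp_sub]
    have e1 : μ (ball x (ρ x / (8 * L)) ∪ ball x' (ρ x' / (8 * L))) ≤ ENNReal.ofReal (2 * b) := by
      refine (measure_union_le _ _).trans ?_
      rw [two_mul, ENNReal.ofReal_add hb.le hb.le]
      exact add_le_add (hμball x) (hμball x')
    have e2 := norm_sq_toLp_le ((hmem x).sub (hmem x')) (e1.trans_lt ENNReal.ofReal_lt_top)
      (C := 2 * dist x x') (fun y => bump_sub_le hL0 hlip x x' y) (by
        intro y hy
        rw [mem_union, not_or] at hy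
        rw [Pi.sub_apply, bump_eq_zero hy.1, bump_eq_zero hy.2, sub_zero])
    refine e2.trans ?_
    have e3 : μ.real (ball x (ρ x / (8 * L)) ∪ ball x' (ρ x' / (8 * L))) ≤ 2 * b := by
      rw [Measure.real]
      exact ENNReal.toReal_le_of_le_ofReal (by positivity) e1
    calc (2 * dist x x') ^ 2 * μ.real (ball x (ρ x / (8 * L)) ∪ ball x' (ρ x' / (8 * L)))
        ≤ (2 * dist x x') ^ 2 * (2 * b) := mul_le_mul_of_nonneg_left e3 (by (clear * -; positivity))
      _ = _ := by ring
  · intro x x' hne hsR hlow hV1 hV2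
    set s := dist x x' with hs
    have hs0 : 0 < s := dist_pos.2 hne
    set r := ρ x with hr
    have hsr : 3 * s / 2 ≤ r := le_scaleFn hL0.le hR₁.le (by (clear * - hs0; positivity)) hsR hV1
    have hr0 : 0 < r := by linarith only [hs0, hsr]
    have hrR : r ≤ R₁ := hρR x
    -- it is enough to find a good set
    have key : ∀ (T : Set X), MeasurableSet T → T ⊆ ball x (r / (8 * L)) →
        a * (12 : ℝ) ^ (-N) / 2 * (64 * L) ^ (-(2 * N)) * (2 * r) ^ N ≤ m.real T →
        (∀ y ∈ T, 1 / (8 * L) * s ≤ |bump ρ L x y - bump ρ L x' y|) →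
        (1 / (8 * L)) ^ 2 * (a * (12 : ℝ) ^ (-N) / 2 * (64 * L) ^ (-(2 * N))) * s ^ 2 ≤
          ‖(hmem x).toLp (bump ρ L x) - (hmem x').toLp (bump ρ L x')‖ ^ 2 := by
      intro T hT hTs hTm hTd
      rw [← MemLp.toLp_sub]
      have hTm' : m T ≠ ∞ := ((measure_mono hTs).trans_lt (hfin _ _)).ne
      have hTμ : μ T ≠ ∞ := ((measure_mono hTs).trans_lt (hfinb x)).ne
      have e1 := le_norm_sq_toLp ((hmem x).sub (hmem x')) hT hTμ
        (c := 1 / (8 * L) * s) (by (clear * - hL hs0; positivity)) hTd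
      refine le_trans ?_ e1
      have e2 : ∀ y ∈ T, 0 < ρ y ∧ ρ y ≤ 2 * r := by
        intro y hy
        have hy2 := hTs hy
        rw [mem_ball, dist_comm, lt_div_iff₀ (by positivity)] at hy2
        have e3 := abs_le.1 (hlip x y)
        constructor <;> nlinarith only [hy2, e3]
      have e4 := le_wMeas hN hT hTm' e2 (by (clear * - hr0; positivity))
      have e5 : (2 * r) ^ (-N) * m.real T ≤ μ.real T := by
        have := ENNReal.toReal_mono hTμ e4
        rwa [ENNReal.toReal_ofReal (by (clear * - hr0; positivity))] at this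
      have e6 : (2 * r) ^ (-N) * (2 * r) ^ N = 1 := by
        rw [← Real.rpow_add (by (clear * - hr0; positivity)), neg_add_cancel, Real.rpow_zero]
      have e7 : a * (12 : ℝ) ^ (-N) / 2 * (64 * L) ^ (-(2 * N)) ≤ μ.real T := by
        refine le_trans ?_ e5
        calc a * (12 : ℝ) ^ (-N) / 2 * (64 * L) ^ (-(2 * N))
            = (2 * r) ^ (-N) * (a * (12 : ℝ) ^ (-N) / 2 * (64 * L) ^ (-(2 * N)) *
                (2 * r) ^ N) := by
              rw [← mul_one (a * (12 : ℝ) ^ (-N) / 2 * (64 * L) ^ (-(2 * N)))]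
              conv_lhs => rw [← e6]
              ring
          _ ≤ _ := mul_le_mul_of_nonneg_left hTm (by (clear * - hr0; positivity))
      calc (1 / (8 * L)) ^ 2 * (a * (12 : ℝ) ^ (-N) / 2 * (64 * L) ^ (-(2 * N))) * s ^ 2
          = (1 / (8 * L) * s) ^ 2 * (a * (12 : ℝ) ^ (-N) / 2 * (64 * L) ^ (-(2 * N))) := by ring
        _ ≤ _ := mul_le_mul_of_nonneg_left e7 (by (clear * - hL hs0; positivity))
    have hNpow : ∀ u v : ℝ, 0 < u → 0 < v → u ≤ v → u ^ N ≤ v ^ N := fun u v hu hv huv =>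
      Real.rpow_le_rpow hu.le huv hN.le
    have h12 : (12 : ℝ) ^ (-N) ≤ 1 := Real.rpow_le_one_of_one_le_of_nonpos (by norm_num)
      (by linarith only [hN])
    have h12p : 0 < (12 : ℝ) ^ (-N) := by positivity
    rcases le_or_gt (64 * L * s) r with hcase | hcase
    · -- small `s`
      set R := r / (16 * L) with hR
      have hR0 : 0 < R := by (clear * - hr0 hL; positivity)
      have hRr : R < r := by
        rw [hR, div_lt_iff₀ (by positivity)]
        nlinarith only [hs0, hL, hsr]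
      have hsR4 : 4 * s ≤ R := by
        rw [hR, le_div_iff₀ (by positivity)]
        linarith only [hcase]
      have hratio := scaleFn_ratio h hfin hQ0 hQ1.le hL hLN hR₁₀ hτ.le hR0 hRr
      have hV : m.real (ball x (3 * s / 2)) / (3 * s / 2) ^ N ≤
          Q⁻¹ ^ 4 * (m.real (ball x R) / R ^ N) := by
        refine hV2.trans ?_
        calc Q⁻¹ * τ = Q⁻¹ ^ 4 * (Q ^ 3 * τ) := by (clear * - hτ hQ0; field_simp)
          _ ≤ _ := mul_le_mul_of_nonneg_left hratio (by positivity)
      have hpair := pair h hfin hQ0 hQ1 hQN hs0 rfl hsR4 (by linarith only [hR₁₀, hrR, hRr]) hV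
      have hlowR := hlow R hR0 (by linarith only [hrR, hRr])
      rw [le_div_iff₀ (by (clear * - hr0 hL; positivity))] at hlowR
      apply key {y ∈ ball x R | s / 4 ≤ dist x y - dist x' y}
      · apply measurableSet_ball.inter
        exact (isClosed_le continuous_const ((continuous_const.dist continuous_id).sub
          (continuous_const.dist continuous_id))).measurableSet
      · intro y hy
        refine ball_subset_ball ?_ hy.1
        rw [hR]
        gcongr
        norm_num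
      · refine le_trans ?_ hpair
        calc a * (12 : ℝ) ^ (-N) / 2 * (64 * L) ^ (-(2 * N)) * (2 * r) ^ N
            = (12 : ℝ) ^ (-N) / 2 * (a * ((64 * L) ^ (-(2 * N)) * (2 * r) ^ N)) := by ring
          _ = (12 : ℝ) ^ (-N) / 2 * (a * (2 * r / (64 * L) ^ 2) ^ N) := by
              rw [pow_aux hL0 (by (clear * - hr0; positivity))]
          _ ≤ (12 : ℝ) ^ (-N) / 2 * (a * R ^ N) := by
              apply mul_le_mul_of_nonneg_left _ (by positivity)
              apply mul_le_mul_of_nonneg_left _ ha.le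
              apply hNpow _ _ (by (clear * - hr0 hL; positivity)) hR0
              rw [hR, div_le_div_iff₀ (by positivity) (by positivity)]
              nlinarith only [hL, mul_pos (mul_pos hr0 hL0) hL0]
          _ ≤ _ := mul_le_mul_of_nonneg_left hlowR (by positivity)
      · rintro y ⟨hy1, hy2⟩
        rw [mem_ball, dist_comm] at hy1
        exact bump_diff_small hL hlip hr0 hy1 hy2
    · -- large `s`
      apply key (ball x (s / (16 * L))) measurableSet_ball
      · apply ball_subset_ball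
        rw [div_le_div_iff₀ (by positivity) (by positivity)]
        nlinarith only [hsr, hs0, hL]
      · have hsR1 : s / (16 * L) ≤ R₁ := by
          rw [div_le_iff₀ (by positivity)]
          nlinarith only [hsR, hL, hR₁]
        have hlowR := hlow (s / (16 * L)) (by (clear * - hs0 hL; positivity)) hsR1
        rw [le_div_iff₀ (by (clear * - hs0 hL; positivity))] at hlowR
        refine le_trans ?_ hlowR
        calc a * (12 : ℝ) ^ (-N) / 2 * (64 * L) ^ (-(2 * N)) * (2 * r) ^ N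
            = (12 : ℝ) ^ (-N) / 2 * (a * ((64 * L) ^ (-(2 * N)) * (2 * r) ^ N)) := by ring
          _ = (12 : ℝ) ^ (-N) / 2 * (a * (2 * r / (64 * L) ^ 2) ^ N) := by
              rw [pow_aux hL0 (by (clear * - hr0; positivity))]
          _ ≤ 1 * (a * (2 * r / (64 * L) ^ 2) ^ N) := by
              apply mul_le_mul_of_nonneg_right _ (by (clear * - ha hr0 hL; positivity))
              linarith only [h12]
          _ ≤ a * (s / (16 * L)) ^ N := by
              rw [one_mul]
              apply mul_le_mul_of_nonneg_left _ ha.le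
              apply hNpow _ _ (by (clear * - hr0 hL; positivity)) (by positivity)
              rw [div_le_div_iff₀ (by positivity) (by positivity)]
              have h1 : r * L ≤ 64 * L * s * L := mul_le_mul_of_nonneg_right hcase.le hL0.le
              nlinarith only [h1, hs0]
      · intro y hy
        rw [mem_ball, dist_comm] at hy
        exact bump_diff_large hL hlip hs0 hsr hy

end Vale.Agent.P242
end
end

section

section

open MeasureTheory Set Metric Filter Topology TopologicalSpace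
open scoped ENNReal

universe u

namespace Vale.Agent.P242

variable {X : Type u} [MetricSpace X] [MeasurableSpace X] [BorelSpace X]

theorem embed_of_contr [SeparableSpace X] {m : Measure X} {N Q R₀ : ℝ} (h : Contr m N Q R₀)
    (hR₀ : 0 < R₀) (hfin : ∀ (x : X) (r : ℝ), m (ball x r) < ∞)
    (hpos : ∀ (x : X) (r : ℝ), 0 < r → 0 < m (ball x r)) (hN : 0 < N)
    (hQ0 : 0 < Q) (hQ1 : Q < 1)
    (hQN : Q⁻¹ ^ 8 - Q * (12 : ℝ) ^ (-N) ≤ 1 - (12 : ℝ) ^ (-N) / 2)
    {b : ℝ} (hb : 0 < b)
    (hub : ∀ (x : X) (r : ℝ), 0 < r → 2 * r ≤ R₀ → m.real (ball x r) ≤ b * r ^ N) (p : X) :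
    ∃ (r C : ℝ) (F : X → EllTwo), 0 < r ∧ 1 ≤ C ∧ ∀ x ∈ ball p r, ∀ z ∈ ball p r,
      C⁻¹ * dist x z ≤ dist (F x) (F z) ∧ dist (F x) (F z) ≤ C * dist x z := by
  obtain ⟨L, hL, hLN⟩ := exists_L hQ1 N
  set R₁ := R₀ / 2 with hR₁
  have hR₁0 : 0 < R₁ := by positivity
  have hR₁R : R₁ ≤ R₀ := by linarith only [hR₀, hR₁]
  set a := Q * (m.real (ball p (R₁ / 2)) / R₁ ^ N) with ha
  have ha0 : 0 < a := by
    have : 0 < m.real (ball p (R₁ / 2)) :=
      ENNReal.toReal_pos (hpos p _ (by positivity)).ne' (hfin p _).ne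
    positivity
  have hlow : ∀ x ∈ ball p (R₁ / 3), ∀ ρ : ℝ, 0 < ρ → ρ ≤ R₁ →
      a ≤ m.real (ball x ρ) / ρ ^ N := by
    intro x hx ρ hρ0 hρR
    have h1 := h.mono hfin hQ1.le (x := x) (s := ρ) (R := R₁) hρ0 hρR hR₁R
    rw [le_div_iff₀ (by positivity)]
    refine le_trans ?_ h1
    rw [Real.div_rpow hρ0.le hR₁0.le]
    have h2 : m.real (ball p (R₁ / 2)) ≤ m.real (ball x R₁) := by
      apply measureReal_mono _ (hfin _ _).ne
      intro y hy
      rw [mem_ball] at *
      have := dist_triangle_right y x p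
      linarith only [hR₁0, hx, hy, this]
    calc a * ρ ^ N = Q * (ρ ^ N / R₁ ^ N) * m.real (ball p (R₁ / 2)) := by
          rw [ha]; ring
      _ ≤ _ := mul_le_mul_of_nonneg_left h2 (by (clear * - hQ0 hρ0 hR₀; positivity))
  have hQi : 1 < Q⁻¹ := (one_lt_inv₀ hQ0).2 hQ1
  obtain ⟨J, hJ⟩ := pow_unbounded_of_one_lt (b / a) hQi
  have hτ : ∀ i : Fin J, 0 < a * Q⁻¹ ^ (i : ℕ) := fun i => by (clear * - ha0 hQ0; positivity)
  choose F hF1 hF2 using fun i : Fin J =>
    block h hfin hN hQ0 hQ1 hQN hL hLN hR₁0 hR₁R ha0 hb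
      (fun x r hr hrR => hub x r hr (by linarith only [hR₁, hrR])) (hτ i)
  let G : X → PiLp 2 (fun i : Fin J =>
      Lp ℝ 2 (wMeas m N (scaleFn m N L R₁ (a * Q⁻¹ ^ (i : ℕ))))) :=
    fun x => WithLp.toLp 2 (fun i => F i x)
  have hG : ∀ x z, dist (G x) (G z) ^ 2 = ∑ i, ‖F i x - F i z‖ ^ 2 := by
    intro x z
    rw [PiLp.dist_eq_of_L2, Real.sq_sqrt (Finset.sum_nonneg fun i _ => sq_nonneg _)]
    exact Finset.sum_congr rfl fun i _ => by rw [dist_eq_norm]
  set c₀ := (1 / (8 * L)) ^ 2 * (a * (12 : ℝ) ^ (-N) / 2 * (64 * L) ^ (-(2 * N))) with hc₀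
  have hL0 : 0 < L := by linarith only [hL]
  have hc₀0 : 0 < c₀ := by (clear * - hL ha0; positivity)
  set C := 1 + 8 * b * J + c₀⁻¹ with hC
  have hJ0 : (0 : ℝ) ≤ J := Nat.cast_nonneg J
  have hC1 : 1 ≤ C := by
    have : 0 < c₀⁻¹ := by (clear * - hL ha0; positivity)
    have : 0 ≤ 8 * b * J := by (clear * - hb; positivity)
    (clear h hN hQ1 hQN hub hLN hR₁ hR₁0 hR₁R ha hlow hQi hJ hτ F hF1 G hG hF2 hc₀ hL0 hc₀0 hC hJ0; linarith)
  have hC0 : 0 < C := by linarith only [hC1]
  have hCsq : C ≤ C ^ 2 := by nlinarith only [hC1]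
  have hup : ∀ x z, dist (G x) (G z) ≤ C * dist x z := by
    intro x z
    apply le_of_sq_le_sq _ (by (clear * - hb hL ha0; positivity))
    rw [hG]
    calc ∑ i, ‖F i x - F i z‖ ^ 2 ≤ ∑ _i : Fin J, 8 * b * dist x z ^ 2 :=
          Finset.sum_le_sum fun i _ => hF1 i x z
      _ = (8 * b * J) * dist x z ^ 2 := by
          rw [Finset.sum_const, Finset.card_univ, Fintype.card_fin, nsmul_eq_mul]
          ring
      _ ≤ C ^ 2 * dist x z ^ 2 := by
          apply mul_le_mul_of_nonneg_right _ (by (clear * -; positivity))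
          have : 0 < c₀⁻¹ := by (clear * - hL ha0; positivity)
          linarith only [hCsq, this]
      _ = _ := by ring
  have hcont : Continuous G := by
    have : LipschitzWith C.toNNReal G := by
      apply LipschitzWith.of_dist_le_mul
      intro x y
      rw [Real.coe_toNNReal _ hC0.le]
      exact hup x y
    exact this.continuous
  have hdown : ∀ x ∈ ball p (R₁ / 3), ∀ z ∈ ball p (R₁ / 3),
      C⁻¹ * dist x z ≤ dist (G x) (G z) := by
    intro x hx z hz
    rcases eq_or_ne x z with rfl | hne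
    · simp
    apply le_of_sq_le_sq _ dist_nonneg
    set s := dist x z with hs
    have hs0 : 0 < s := dist_pos.2 hne
    have hs1 : 3 * s / 2 ≤ R₁ := by
      rw [mem_ball] at hx hz
      have := dist_triangle_right x z p
      linarith only [hx, hz, this]
    set v := m.real (ball x (3 * s / 2)) / (3 * s / 2) ^ N with hv
    have hva : a ≤ v := hlow x hx _ (by (clear * - hs0; positivity)) hs1
    have hvb : v ≤ b := by
      rw [hv, div_le_iff₀ (by (clear * - hs0; positivity))]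
      exact hub x _ (by (clear * - hs0; positivity)) (by linarith only [hR₁, hs1])
    have hva1 : 1 ≤ v / a := by rwa [one_le_div ha0]
    obtain ⟨n, hn1, hn2⟩ := exists_nat_pow_near hva1 hQi
    have hnJ : n < J := by
      by_contra hcon
      rw [not_lt] at hcon
      have h1 : Q⁻¹ ^ J ≤ Q⁻¹ ^ n := pow_le_pow_right₀ hQi.le hcon
      have h2 : v / a ≤ b / a := by (clear * - hvb ha0; gcongr)
      linarith only [hJ, hn1, h1, h2]
    rw [le_div_iff₀ ha0] at hn1
    rw [div_lt_iff₀ ha0] at hn2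
    have h3 := hF2 ⟨n, hnJ⟩ x z hne hs1 (hlow x hx) (by
      show a * Q⁻¹ ^ n ≤ v
      linarith only [hn1]) (by
      show v ≤ Q⁻¹ * (a * Q⁻¹ ^ n)
      have : Q⁻¹ * (a * Q⁻¹ ^ n) = Q⁻¹ ^ (n + 1) * a := by ring
      linarith only [hn2, this])
    have h4 : ‖F ⟨n, hnJ⟩ x - F ⟨n, hnJ⟩ z‖ ^ 2 ≤ dist (G x) (G z) ^ 2 := by
      rw [hG]
      exact Finset.single_le_sum (f := fun i => ‖F i x - F i z‖ ^ 2)
        (fun i _ => sq_nonneg _) (Finset.mem_univ _)
    refine le_trans ?_ (h3.trans h4)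
    rw [mul_pow]
    apply mul_le_mul_of_nonneg_right _ (by (clear * - hs0; positivity))
    rw [inv_pow]
    rw [inv_le_comm₀ (by (clear * - hb hL ha0; positivity)) hc₀0]
    have : 0 ≤ 8 * b * J := by (clear * - hb; positivity)
    linarith only [hCsq, this]
  obtain ⟨F', hF'⟩ := exists_map_ellTwo hcont
  refine ⟨R₁ / 3, C, F', by positivity, hC1, fun x hx z hz => ?_⟩
  rw [hF']
  exact ⟨hdown x hx z hz, hup x z⟩

end Vale.Agent.P242
end
end
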